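import Mathlib

/-!
P092, [D-XC] (helper295): translations of `C₀(G, ℂ)`, positivity and norm comparison for
`Φ : C₀(G, ℂ) →⋆ₙₐ[ℂ] B(K)`.
-/

set_option linter.all false

open scoped InnerProductSpace ENNReal Topology ZeroAtInfty
open Filter Topology ContinuousLinearMap MeasureTheory

namespace Vale.Agent.P092.H295

section nrm

variable {G : Type*} [TopologicalSpace G]

lemma norm_apply_le_norm (c : C₀(G, ℂ)) (x : G) : ‖c x‖ ≤ ‖c‖ := by
  rw [← ZeroAtInftyContinuousMap.norm_toBCF_eq_norm]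
  exact BoundedContinuousFunction.norm_coe_le_norm c.toBCF x

lemma norm_le_of_forall {c : C₀(G, ℂ)} {ε : ℝ} (hε : 0 ≤ ε) (h : ∀ x, ‖c x‖ ≤ ε) : ‖c‖ ≤ ε := by
  rw [← ZeroAtInftyContinuousMap.norm_toBCF_eq_norm]
  exact (BoundedContinuousFunction.norm_le hε).2 h

end nrm

section trl

variable {G : Type*} [TopologicalSpace G] [Group G] [IsTopologicalGroup G]

/-- `(ltr g c) x = c (g⁻¹ x)` -/
noncomputable def ltr (g : G) (c : C₀(G, ℂ)) : C₀(G, ℂ) :=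
  c.comp (Homeomorph.mulLeft g⁻¹).toCocompactMap

/-- `(rtr h c) x = c (x h)` -/
noncomputable def rtr (h : G) (c : C₀(G, ℂ)) : C₀(G, ℂ) :=
  c.comp (Homeomorph.mulRight h).toCocompactMap

/-- `(cj u c) x = c (u⁻¹ x u)` -/
noncomputable def cj (u : G) (c : C₀(G, ℂ)) : C₀(G, ℂ) := rtr u (ltr u c)

@[simp] lemma ltr_apply (g x : G) (c : C₀(G, ℂ)) : ltr g c x = c (g⁻¹ * x) := rfl
@[simp] lemma rtr_apply (h x : G) (c : C₀(G, ℂ)) : rtr h c x = c (x * h) := rfl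
@[simp] lemma cj_apply (u x : G) (c : C₀(G, ℂ)) : cj u c x = c (u⁻¹ * (x * u)) := rfl

lemma ltr_mul (g h : G) (c : C₀(G, ℂ)) : ltr (g * h) c = ltr g (ltr h c) := by
  ext x; simp [mul_assoc]

@[simp] lemma ltr_one (c : C₀(G, ℂ)) : ltr 1 c = c := by ext x; simp

lemma rtr_ltr (h g : G) (c : C₀(G, ℂ)) : rtr h (ltr g c) = ltr (g * h⁻¹) (cj h c) := by
  ext x; simp [mul_assoc]

lemma ltr_rtr (h g : G) (c : C₀(G, ℂ)) : ltr g (rtr h c) = rtr h (ltr g c) := by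
  ext x; simp [mul_assoc]

@[simp] lemma ltr_sub (g : G) (c d : C₀(G, ℂ)) : ltr g (c - d) = ltr g c - ltr g d := by
  ext x; simp

@[simp] lemma ltr_star (g : G) (c : C₀(G, ℂ)) : ltr g (star c) = star (ltr g c) := by
  ext x; simp

@[simp] lemma ltr_mulf (g : G) (c d : C₀(G, ℂ)) : ltr g (c * d) = ltr g c * ltr g d := by
  ext x; simp

theorem exists_nhds_left (c : C₀(G, ℂ)) {ε : ℝ} (hε : 0 < ε) :
    ∃ V ∈ 𝓝 (1 : G), ∀ h ∈ V, ∀ y, ‖c (h * y) - c y‖ < ε := by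
  letI := IsTopologicalGroup.rightUniformSpace G
  have hu : UniformContinuous (c : G → ℂ) := ZeroAtInftyContinuousMap.uniformContinuous c
  have h1 := hu (Metric.dist_mem_uniformity hε)
  rw [Filter.mem_map] at h1
  obtain ⟨V, hV, hVs⟩ := h1
  refine ⟨V, hV, fun h hh y => ?_⟩
  have h2 : ((y, h * y) : G × G) ∈ (fun p : G × G => p.2 * p.1⁻¹) ⁻¹' V := by simpa using hh
  have h3 := hVs h2
  simp only [Set.mem_preimage, Set.mem_setOf_eq] at h3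
  rw [dist_comm, dist_eq_norm] at h3
  exact h3

theorem exists_nhds_right (c : C₀(G, ℂ)) {ε : ℝ} (hε : 0 < ε) :
    ∃ V ∈ 𝓝 (1 : G), ∀ h ∈ V, ∀ y, ‖c (y * h) - c y‖ < ε := by
  letI := IsTopologicalGroup.leftUniformSpace G
  have hu : UniformContinuous (c : G → ℂ) := ZeroAtInftyContinuousMap.uniformContinuous c
  have h1 := hu (Metric.dist_mem_uniformity hε)
  rw [Filter.mem_map] at h1
  obtain ⟨V, hV, hVs⟩ := h1
  refine ⟨V, hV, fun h hh y => ?_⟩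
  have h2 : ((y, y * h) : G × G) ∈ (fun p : G × G => p.1⁻¹ * p.2) ⁻¹' V := by simpa using hh
  have h3 := hVs h2
  simp only [Set.mem_preimage, Set.mem_setOf_eq] at h3
  rw [dist_comm, dist_eq_norm] at h3
  exact h3

theorem continuous_ltr (c : C₀(G, ℂ)) : Continuous (fun g : G => ltr g c) := by
  rw [continuous_iff_continuousAt]
  intro g₀
  rw [ContinuousAt, Metric.tendsto_nhds]
  intro ε hε
  obtain ⟨V, hV, hVs⟩ := exists_nhds_left c (half_pos hε)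
  have h1 : Tendsto (fun g : G => g⁻¹ * g₀) (𝓝 g₀) (𝓝 (1 : G)) := by
    have : Continuous fun g : G => g⁻¹ * g₀ := by fun_prop
    simpa using this.tendsto g₀
  filter_upwards [h1 hV] with g hg
  rw [dist_eq_norm]
  refine lt_of_le_of_lt (norm_le_of_forall (half_pos hε).le fun x => ?_) (half_lt_self hε)
  have h2 := hVs _ hg (g₀⁻¹ * x)
  have h3 : g⁻¹ * g₀ * (g₀⁻¹ * x) = g⁻¹ * x := by group
  rw [h3] at h2
  exact h2.le

end trl

section pos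

variable {G : Type*} [TopologicalSpace G]
  {K : Type*} [NormedAddCommGroup K] [InnerProductSpace ℂ K] [CompleteSpace K]

/-- the square root of the modulus of `d`, in `C₀` -/
noncomputable def sqr (d : C₀(G, ℂ)) : C₀(G, ℂ) where
  toFun x := ((Real.sqrt ‖d x‖ : ℝ) : ℂ)
  continuous_toFun := by fun_prop
  zero_at_infty' := by
    have h := (d.zero_at_infty').norm
    rw [norm_zero] at h
    have h2 := (Real.continuous_sqrt.tendsto 0).comp h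
    rw [Real.sqrt_zero] at h2
    exact (Complex.continuous_ofReal.tendsto 0).comp h2

lemma sqr_apply (d : C₀(G, ℂ)) (x : G) : sqr d x = ((Real.sqrt ‖d x‖ : ℝ) : ℂ) := rfl

lemma star_sqr_mul (d : C₀(G, ℂ)) (hd : ∀ x, d x = (‖d x‖ : ℝ)) : star (sqr d) * sqr d = d := by
  ext x
  simp only [ZeroAtInftyContinuousMap.mul_apply, ZeroAtInftyContinuousMap.star_apply, sqr_apply]
  rw [Complex.star_def, Complex.conj_ofReal, ← Complex.ofReal_mul,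
    Real.mul_self_sqrt (norm_nonneg _), ← hd x]

variable (Φ : C₀(G, ℂ) →⋆ₙₐ[ℂ] (K →L[ℂ] K))

lemma adj_map (c : C₀(G, ℂ)) : adjoint (Φ c) = Φ (star c) := by
  rw [map_star]; rfl

lemma inner_star_mul (c d : C₀(G, ℂ)) (η ξ : K) :
    ⟪Φ c η, Φ d ξ⟫_ℂ = ⟪η, Φ (star c * d) ξ⟫_ℂ := by
  rw [map_mul, ContinuousLinearMap.mul_apply, ← adj_map, adjoint_inner_right]

lemma norm_sq_eq (c : C₀(G, ℂ)) (ξ : K) :
    ((‖Φ c ξ‖ ^ 2 : ℝ) : ℂ) = ⟪ξ, Φ (star c * c) ξ⟫_ℂ := by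
  rw [← inner_star_mul, inner_self_eq_norm_sq_to_K]
  push_cast
  rfl

lemma nonneg_of_nonneg (d : C₀(G, ℂ)) (hd : ∀ x, d x = (‖d x‖ : ℝ)) (ξ : K) :
    0 ≤ (⟪ξ, Φ d ξ⟫_ℂ).re := by
  have h := norm_sq_eq Φ (sqr d) ξ
  rw [star_sqr_mul d hd] at h
  rw [← h, Complex.ofReal_re]
  positivity

/-- comparison: `|a| ≤ δ |b|` pointwise implies `‖Φ a ξ‖ ≤ δ ‖Φ b ξ‖` -/
theorem norm_map_le {a b : C₀(G, ℂ)} {δ : ℝ} (hδ : 0 ≤ δ) (h : ∀ x, ‖a x‖ ≤ δ * ‖b x‖) (ξ : K) :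
    ‖Φ a ξ‖ ≤ δ * ‖Φ b ξ‖ := by
  set d : C₀(G, ℂ) := ((δ ^ 2 : ℝ) : ℂ) • (star b * b) - star a * a with hd
  have hdx : ∀ x, d x = ((δ ^ 2 * ‖b x‖ ^ 2 - ‖a x‖ ^ 2 : ℝ) : ℂ) := by
    intro x
    simp only [hd, ZeroAtInftyContinuousMap.sub_apply, ZeroAtInftyContinuousMap.smul_apply,
      ZeroAtInftyContinuousMap.mul_apply, ZeroAtInftyContinuousMap.star_apply, smul_eq_mul,
      Complex.star_def]
    rw [← Complex.normSq_eq_conj_mul_self, ← Complex.normSq_eq_conj_mul_self,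
      Complex.normSq_eq_norm_sq, Complex.normSq_eq_norm_sq]
    push_cast
    ring
  have hnn : ∀ x, 0 ≤ δ ^ 2 * ‖b x‖ ^ 2 - ‖a x‖ ^ 2 := by
    intro x
    have h1 := h x
    have h2 : ‖a x‖ ^ 2 ≤ (δ * ‖b x‖) ^ 2 := by gcongr
    rw [mul_pow] at h2
    linarith
  have h1 : 0 ≤ (⟪ξ, Φ d ξ⟫_ℂ).re := nonneg_of_nonneg Φ d (fun x => by
    rw [hdx x, Complex.norm_real, Real.norm_eq_abs, abs_of_nonneg (hnn x)]) ξ
  have h2 : ⟪ξ, Φ d ξ⟫_ℂ = ((δ ^ 2 * ‖Φ b ξ‖ ^ 2 - ‖Φ a ξ‖ ^ 2 : ℝ) : ℂ) := by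
    rw [hd, map_sub, map_smul, ContinuousLinearMap.sub_apply, ContinuousLinearMap.smul_apply,
      inner_sub_right, inner_smul_right, ← norm_sq_eq, ← norm_sq_eq]
    push_cast
    ring
  rw [h2, Complex.ofReal_re] at h1
  have h3 : ‖Φ a ξ‖ ^ 2 ≤ (δ * ‖Φ b ξ‖) ^ 2 := by rw [mul_pow]; linarith
  exact le_of_sq_le_sq h3 (by positivity)

lemma norm_map_le_norm (c : C₀(G, ℂ)) : ‖Φ c‖ ≤ ‖c‖ := by
  exact NonUnitalStarAlgHom.norm_apply_le Φ c

lemma continuous_map : Continuous Φ := by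
  exact (NonUnitalStarAlgHom.instContinuousLinearMapClassComplex).map_continuous Φ

end pos

end Vale.Agent.P092.H295
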