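import Vale.Agent.P092.H295.Xc
import Vale.Agent.P092.RC.Defs

/-!
P092, [D-XC] (helper295): a classical leg with one point; its calculus commutes with the classical
calculus of the other leg as soon as it is unique.
-/

set_option linter.all false

open scoped InnerProductSpace ENNReal Topology ZeroAtInfty
open Filter Topology ContinuousLinearMap MeasureTheory Measure

namespace Vale.Agent.P092.H295

open Vale.Agent.P092.RC (Cm)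

section nd

variable {G : Type} [TopologicalSpace G]
  {K : Type} [NormedAddCommGroup K] [InnerProductSpace ℂ K] [CompleteSpace K]
  {Q : C₀(G, ℂ) →⋆ₙₐ[ℂ] (K →L[ℂ] K)}

lemma ext_nd (h : ∀ ξ, (∀ c, Q c ξ = 0) → ξ = 0) {T T' : K →L[ℂ] K}
    (hT : ∀ ψ, T * Q ψ = T' * Q ψ) : T = T' := by
  have h1 : ∀ η, adjoint (T - T') η = 0 := by
    intro η
    refine h _ fun c => ?_
    have h2 : (T - T') * Q (star c) = 0 := by rw [sub_mul, hT, sub_self]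
    have h3 := congrArg adjoint h2
    rw [ContinuousLinearMap.mul_def, adjoint_comp, adj_map, star_star, map_zero] at h3
    exact congrArg (fun A : K →L[ℂ] K => A η) h3
  have h2 : adjoint (T - T') = 0 := ContinuousLinearMap.ext h1
  have h3 : T - T' = 0 := by
    rw [← adjoint_adjoint (T - T'), h2, map_zero]
  exact sub_eq_zero.1 h3

end nd

section pt

variable {G : Type} [TopologicalSpace G] [Group G] [IsTopologicalGroup G]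
  {P : Type} [TopologicalSpace P] [CompactSpace P] [MulAction G P] [ContinuousSMul G P]
  {K : Type} [NormedAddCommGroup K] [InnerProductSpace ℂ K] [CompleteSpace K]

/-- the function `x ↦ f (x • a) * ψ x` -/
noncomputable def mf (a : P) (f : C(P, ℂ)) (ψ : C₀(G, ℂ)) : C₀(G, ℂ) where
  toFun x := f (x • a) * ψ x
  continuous_toFun := (f.continuous.comp (continuous_id.smul continuous_const)).mul ψ.continuous
  zero_at_infty' := by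
    rw [tendsto_zero_iff_norm_tendsto_zero]
    have h1 := ψ.zero_at_infty'.norm.const_mul ‖f‖
    rw [norm_zero, mul_zero] at h1
    refine squeeze_zero (fun x => norm_nonneg _) (fun x => ?_) h1
    rw [norm_mul]
    gcongr
    · exact f.norm_coe_le_norm _
    · exact le_rfl

lemma mf_apply (a : P) (f : C(P, ℂ)) (ψ : C₀(G, ℂ)) (x : G) : mf a f ψ x = f (x • a) * ψ x := rfl

/-- the translate of a function -/
noncomputable def tr (g : G) (f : C(P, ℂ)) : C(P, ℂ) :=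
  ⟨fun x => f (g⁻¹ • x), f.continuous.comp (continuous_const_smul g⁻¹)⟩

lemma tr_apply (g : G) (f : C(P, ℂ)) (x : P) : tr g f x = f (g⁻¹ • x) := rfl

variable {H Γ : Type} [Group H] [Group Γ] {π : H →* (K →L[ℂ] K)} {lam : Γ →* (K →L[ℂ] K)}
  {W : Set (K →L[ℂ] K)} {q : Γ →* G} {ι : H →* G} {a : P} {E : C(P, ℂ) →⋆ₐ[ℂ] (K →L[ℂ] K)}
  {Q : C₀(G, ℂ) →⋆ₙₐ[ℂ] (K →L[ℂ] K)}

/-- a classical leg and the calculus `E` of the position of one point -/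
structure Pt (π : H →* (K →L[ℂ] K)) (lam : Γ →* (K →L[ℂ] K)) (W : Set (K →L[ℂ] K)) (q : Γ →* G)
    (ι : H →* G) (a : P) (E : C(P, ℂ) →⋆ₐ[ℂ] (K →L[ℂ] K)) (Q : C₀(G, ℂ) →⋆ₙₐ[ℂ] (K →L[ℂ] K)) :
    Prop where
  nd : ∀ ξ, (∀ ψ, Q ψ ξ = 0) → ξ = 0
  cm : ∀ ψ, Cm W (Q ψ)
  cov : ∀ γ ψ, lam γ * Q ψ * lam γ⁻¹ = Q (ltr (q γ) ψ)
  pcov : ∀ h ψ, π h * Q ψ * π h⁻¹ = Q (rtr (ι h) ψ)
  mulE : ∀ f ψ, E f * Q ψ = Q (mf a f ψ)

lemma mul_inv_map {L : Type} [Group L] (ρ : L →* (K →L[ℂ] K)) (g : L) : ρ g * ρ g⁻¹ = 1 := by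
  rw [← map_mul, mul_inv_cancel, map_one]

lemma inv_mul_map {L : Type} [Group L] (ρ : L →* (K →L[ℂ] K)) (g : L) : ρ g⁻¹ * ρ g = 1 := by
  rw [← map_mul, inv_mul_cancel, map_one]

theorem Pt.cmE (h : Pt π lam W q ι a E Q) (f : C(P, ℂ)) : Cm W (E f) := by
  intro w hw
  refine ext_nd h.nd fun ψ => ?_
  rw [mul_assoc, ← h.cm ψ w hw, ← mul_assoc, h.mulE, h.cm _ w hw, mul_assoc, h.mulE]

theorem Pt.covE (h : Pt π lam W q ι a E Q) (γ : Γ) (f : C(P, ℂ)) :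
    lam γ * E f * lam γ⁻¹ = E (tr (q γ) f) := by
  refine ext_nd h.nd fun ψ => ?_
  have h1 : lam γ⁻¹ * Q ψ = Q (ltr (q γ⁻¹) ψ) * lam γ⁻¹ := by
    have := h.cov γ⁻¹ ψ
    rw [inv_inv] at this
    rw [← this, mul_assoc, mul_assoc, mul_inv_map, mul_one]
  calc lam γ * E f * lam γ⁻¹ * Q ψ = lam γ * E f * (lam γ⁻¹ * Q ψ) := by noncomm_ring
    _ = lam γ * (E f * Q (ltr (q γ⁻¹) ψ)) * lam γ⁻¹ := by rw [h1]; noncomm_ring
    _ = Q (ltr (q γ) (mf a f (ltr (q γ⁻¹) ψ))) := by rw [h.mulE, h.cov]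
    _ = Q (mf a (tr (q γ) f) ψ) := by
      congr 1
      ext x
      rw [ltr_apply, mf_apply, mf_apply, ltr_apply, tr_apply, map_inv, inv_inv,
        mul_inv_cancel_left, mul_smul]
    _ = E (tr (q γ) f) * Q ψ := (h.mulE _ _).symm

theorem Pt.piE (h : Pt π lam W q ι a E Q) {u : H} (hu : ι u • a = a) (f : C(P, ℂ)) :
    π u * E f * π u⁻¹ = E f := by
  refine ext_nd h.nd fun ψ => ?_
  have h1 : π u⁻¹ * Q ψ = Q (rtr (ι u⁻¹) ψ) * π u⁻¹ := by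
    have := h.pcov u⁻¹ ψ
    rw [inv_inv] at this
    rw [← this, mul_assoc, mul_assoc, mul_inv_map, mul_one]
  calc π u * E f * π u⁻¹ * Q ψ = π u * E f * (π u⁻¹ * Q ψ) := by noncomm_ring
    _ = π u * (E f * Q (rtr (ι u⁻¹) ψ)) * π u⁻¹ := by rw [h1]; noncomm_ring
    _ = Q (rtr (ι u) (mf a f (rtr (ι u⁻¹) ψ))) := by rw [h.mulE, h.pcov]
    _ = Q (mf a f ψ) := by
      congr 1
      ext x
      rw [rtr_apply, mf_apply, mf_apply, rtr_apply, map_inv, mul_inv_cancel_right, mul_smul, hu]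
    _ = E f * Q ψ := (h.mulE _ _).symm

end pt

section cross

variable {G₁ G : Type} [TopologicalSpace G₁] [Group G₁] [IsTopologicalGroup G₁]
  [TopologicalSpace G] [Group G] [IsTopologicalGroup G] [T2Space G]
  [LocallyCompactSpace G] [SecondCountableTopology G] [MeasurableSpace G] [BorelSpace G]
  (μ : Measure G) [μ.IsHaarMeasure] [μ.IsMulRightInvariant]
  {P : Type} [TopologicalSpace P] [CompactSpace P] [MulAction G₁ P] [ContinuousSMul G₁ P]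
  {K : Type} [NormedAddCommGroup K] [InnerProductSpace ℂ K] [CompleteSpace K]
  {H Γ Γ' : Type} [Group H] [Group Γ] [Group Γ'] {π : H →* (K →L[ℂ] K)}
  {lam₁ : Γ →* (K →L[ℂ] K)} {lam₂ : Γ' →* (K →L[ℂ] K)}
  {X : Set (K →L[ℂ] K)} {q₁ : Γ →* G₁} {q₂ : Γ' →* G} {ι₁ : H →* G₁} {ι₂ : H →* G} {a : P}
  {E : C(P, ℂ) →⋆ₐ[ℂ] (K →L[ℂ] K)} {Q₁ : C₀(G₁, ℂ) →⋆ₙₐ[ℂ] (K →L[ℂ] K)}
  {Q₂ : C₀(G, ℂ) →⋆ₙₐ[ℂ] (K →L[ℂ] K)}

/-- The uniqueness of the calculus of one point, in the form in which it is used: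
a unital Kadison-Schwarz map with the same symmetries is equal to `E`. -/
def Uniq (π : H →* (K →L[ℂ] K)) (lam : Γ →* (K →L[ℂ] K)) (W : Set (K →L[ℂ] K)) (q : Γ →* G₁)
    (N : Set H) (E : C(P, ℂ) →⋆ₐ[ℂ] (K →L[ℂ] K)) : Prop :=
  ∀ E' : C(P, ℂ) →ₗ[ℂ] (K →L[ℂ] K), E' 1 = 1 →
    (∀ f ζ, ‖E' f ζ‖ ^ 2 ≤ RCLike.re ⟪ζ, E' (star f * f) ζ⟫_ℂ) → (∀ f, ‖E' f‖ ≤ ‖f‖) →
    (∀ f, Cm W (E' f)) → (∀ γ f, lam γ * E' f * lam γ⁻¹ = E' (tr (q γ) f)) →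
    (∀ u ∈ N, ∀ f, π u * E' f * π u⁻¹ = E' f) → ∀ f, E' f = E f

include μ in
/-- **[XC-4]** -/
theorem commute_of_uniq (h₁ : Pt π lam₁ (X ∪ Set.range lam₂) q₁ ι₁ a E Q₁)
    (nd₂ : ∀ ξ, (∀ ψ, Q₂ ψ ξ = 0) → ξ = 0) (cm₂ : ∀ ψ, Cm (X ∪ Set.range lam₁) (Q₂ ψ))
    (cov₂ : ∀ γ ψ, lam₂ γ * Q₂ ψ * lam₂ γ⁻¹ = Q₂ (ltr (q₂ γ) ψ))
    (pcov₂ : ∀ h ψ, π h * Q₂ ψ * π h⁻¹ = Q₂ (rtr (ι₂ h) ψ))
    (adjP : ∀ g, adjoint (π g) = π g⁻¹) (adj₁ : ∀ γ, adjoint (lam₁ γ) = lam₁ γ⁻¹)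
    (adj₂ : ∀ γ, adjoint (lam₂ γ) = lam₂ γ⁻¹)
    (N : Set H) (hN : ∀ u ∈ N, ∀ v ∈ N, Commute u v) (hNa : ∀ u ∈ N, ι₁ u • a = a)
    (uq : Uniq π lam₁ (X ∪ Set.range lam₂) q₁ N E) (f : C(P, ℂ)) (χ : C₀(G, ℂ)) :
    Commute (E f) (Q₂ χ) := by
  obtain ⟨E', h1, hks, hn, hT, hU, hR, hC⟩ := exists_cross μ nd₂ E (ι₂ '' N) (by
    rintro _ ⟨u, hu, rfl⟩ _ ⟨v, hv, rfl⟩
    exact (hN u hu v hv).map ι₂)
  have key : ∀ f, E' f = E f := by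
    refine uq E' h1 hks hn ?_ ?_ ?_
    · intro f w hw
      rcases hw with hw | ⟨γ, rfl⟩
      · exact hT w (fun c => cm₂ c w (Or.inl hw)) f (h₁.cmE f w (Or.inl hw))
      · have e1 : lam₂ γ * E f * lam₂ γ⁻¹ = E f := by
          rw [← h₁.cmE f (lam₂ γ) (Or.inr ⟨γ, rfl⟩), mul_assoc, mul_inv_map, mul_one]
        have e2 := hU (lam₂ γ) (lam₂ γ⁻¹) (q₂ γ) (adj₂ γ) (inv_mul_map lam₂ γ) (cov₂ γ) f f e1
        calc E' f * lam₂ γ = lam₂ γ * E' f * lam₂ γ⁻¹ * lam₂ γ := by rw [e2]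
          _ = lam₂ γ * E' f := by rw [mul_assoc, inv_mul_map, mul_one]
    · intro γ f
      refine hU (lam₁ γ) (lam₁ γ⁻¹) 1 (adj₁ γ) (inv_mul_map lam₁ γ) (fun c => ?_) f _ (h₁.covE γ f)
      rw [ltr_one, ← cm₂ c (lam₁ γ) (Or.inr ⟨γ, rfl⟩), mul_assoc, mul_inv_map, mul_one]
    · intro u hu f
      exact hR (π u) (π u⁻¹) (ι₂ u) ⟨u, hu, rfl⟩ (adjP u) (inv_mul_map π u) (pcov₂ u) f
        (h₁.piE (hNa u hu) f)
  rw [← key f]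
  exact hC f χ

end cross

end Vale.Agent.P092.H295
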