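import Vale.Agent.P092.H295.PinA
import Vale.Agent.P092.H295.Trl

/-!
P092, [D-XC] (helper295): the pinching along `g ↦ Φ (ltr g c)`.
-/

set_option linter.all false

open scoped InnerProductSpace ENNReal Topology ZeroAtInfty Pointwise
open Filter Topology ContinuousLinearMap MeasureTheory Measure

namespace Vale.Agent.P092.H295

section inv

variable {G : Type*} [TopologicalSpace G] [Group G] [IsTopologicalGroup G] [LocallyCompactSpace G]
  [SecondCountableTopology G] [MeasurableSpace G] [BorelSpace G]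

/-- unimodular groups: Haar measure is invariant under inversion -/
theorem isInvInvariant (μ : Measure G) [μ.IsHaarMeasure] [μ.IsMulRightInvariant] :
    μ.IsInvInvariant := by
  constructor
  let c : ℝ≥0∞ := haarScalarFactor μ.inv μ
  have hc : μ.inv = c • μ := isMulLeftInvariant_eq_smul μ.inv μ
  have : map Inv.inv (map Inv.inv μ) = c ^ 2 • μ := by
    rw [← inv_def μ, hc, Measure.map_smul, ← inv_def μ, hc, smul_smul, pow_two]
  have μeq : μ = c ^ 2 • μ := by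
    rw [map_map continuous_inv.measurable continuous_inv.measurable] at this
    simpa only [inv_involutive, Function.Involutive.comp_self, Measure.map_id]
  have K : TopologicalSpace.PositiveCompacts G := Classical.arbitrary _
  have : c ^ 2 * μ K = 1 ^ 2 * μ K := by
    conv_rhs => rw [μeq]
    simp
  have : c ^ 2 = 1 ^ 2 :=
    (ENNReal.mul_left_inj (measure_pos_of_nonempty_interior _ K.interior_nonempty).ne'
          K.isCompact.measure_lt_top.ne).1 this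
  have : c = 1 := (ENNReal.pow_right_strictMono two_ne_zero).injective this
  rw [hc, this, one_smul]

lemma integral_ltr_inv (μ : Measure G) [μ.IsHaarMeasure] [μ.IsMulRightInvariant]
    {E : Type*} [NormedAddCommGroup E] [NormedSpace ℝ E] (f : G → E) (x : G) :
    ∫ g, f (g⁻¹ * x) ∂μ = ∫ g, f g ∂μ := by
  haveI := isInvInvariant μ
  rw [integral_inv_eq_self (fun g => f (g * x)) μ, integral_mul_right_eq_self]

end inv

section cpt

variable {G : Type*} [TopologicalSpace G] [T2Space G] [LocallyCompactSpace G]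

/-- a cut-off function in `C₀(G, ℂ)` with compact support, equal to `1` on the compact set `k` -/
theorem exists_cut {k : Set G} (hk : IsCompact k) :
    ∃ w : C₀(G, ℂ), HasCompactSupport w ∧ (∀ x ∈ k, w x = 1) ∧ ∀ x, ‖w x‖ ≤ 1 ∧ w x = (‖w x‖ : ℝ) := by
  obtain ⟨f, hf1, -, hfc, hf01⟩ := exists_continuous_one_zero_of_isCompact hk
    (isClosed_empty : IsClosed (∅ : Set G)) (Set.disjoint_empty k)
  have hcs : HasCompactSupport (fun x : G => ((f x : ℝ) : ℂ)) :=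
    hfc.comp_left (g := fun r : ℝ => (r : ℂ)) Complex.ofReal_zero
  refine ⟨⟨⟨fun x => ((f x : ℝ) : ℂ), by fun_prop⟩, ?_⟩, hcs, fun x hx => ?_, fun x => ?_⟩
  · exact hcs.is_zero_at_infty
  · change ((f x : ℝ) : ℂ) = 1
    rw [hf1 hx]; simp
  · change ‖((f x : ℝ) : ℂ)‖ ≤ 1 ∧ ((f x : ℝ) : ℂ) = (‖((f x : ℝ) : ℂ)‖ : ℝ)
    have h := hf01 x
    rw [Complex.norm_real, Real.norm_eq_abs, abs_of_nonneg h.1]
    exact ⟨h.2, rfl⟩

/-- functions with compact support are dense in `C₀(G, ℂ)` -/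
theorem exists_approx (c : C₀(G, ℂ)) {ε : ℝ} (hε : 0 < ε) :
    ∃ d : C₀(G, ℂ), HasCompactSupport d ∧ ‖c - d‖ ≤ ε := by
  have h1 : ∀ᶠ x in cocompact G, ‖c x‖ < ε := by
    have := c.zero_at_infty'.norm
    rw [norm_zero] at this
    exact this.eventually (gt_mem_nhds hε)
  rw [Filter.eventually_iff, mem_cocompact] at h1
  obtain ⟨t, ht, hts⟩ := h1
  obtain ⟨w, hw, hw1, hw2⟩ := exists_cut ht
  refine ⟨w * c, hw.mul_right, norm_le_of_forall hε.le fun x => ?_⟩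
  rw [ZeroAtInftyContinuousMap.sub_apply, ZeroAtInftyContinuousMap.mul_apply]
  by_cases hx : x ∈ t
  · rw [hw1 x hx]; simp [hε.le]
  · have h2 : ‖c x‖ < ε := hts hx
    have h3 : c x - w x * c x = (1 - w x) * c x := by ring
    rw [h3, norm_mul]
    have h4 : ‖(1 : ℂ) - w x‖ ≤ 1 := by
      rw [(hw2 x).2, ← Complex.ofReal_one, ← Complex.ofReal_sub, Complex.norm_real,
        Real.norm_eq_abs, abs_of_nonneg (by have := (hw2 x).1; linarith)]
      have := norm_nonneg (w x)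
      linarith
    calc ‖(1 : ℂ) - w x‖ * ‖c x‖ ≤ 1 * ‖c x‖ := by gcongr
      _ ≤ ε := by rw [one_mul]; exact h2.le

end cpt

section dense

variable {G : Type*} [TopologicalSpace G] [T2Space G] [LocallyCompactSpace G]
  {K : Type*} [NormedAddCommGroup K] [InnerProductSpace ℂ K] [CompleteSpace K]
  (Φ : C₀(G, ℂ) →⋆ₙₐ[ℂ] (K →L[ℂ] K))

/-- nondegenerate -/
def ND : Prop := ∀ ξ, (∀ c, Φ c ξ = 0) → ξ = 0

/-- the vectors with compact support -/
def cs : Submodule ℂ K where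
  carrier := {ξ | ∃ w : C₀(G, ℂ), HasCompactSupport w ∧ Φ w ξ = ξ}
  zero_mem' := ⟨0, HasCompactSupport.zero, by simp⟩
  add_mem' := by
    rintro ξ η ⟨w, hw, hwξ⟩ ⟨v, hv, hvη⟩
    obtain ⟨u, hu, hu1, -⟩ := exists_cut (hw.isCompact.union hv.isCompact)
    refine ⟨u, hu, ?_⟩
    have h1 : u * w = w := by
      ext x
      rw [ZeroAtInftyContinuousMap.mul_apply]
      by_cases hx : x ∈ tsupport w
      · rw [hu1 x (Or.inl hx), one_mul]
      · rw [image_eq_zero_of_notMem_tsupport hx, mul_zero]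
    have h2 : u * v = v := by
      ext x
      rw [ZeroAtInftyContinuousMap.mul_apply]
      by_cases hx : x ∈ tsupport v
      · rw [hu1 x (Or.inr hx), one_mul]
      · rw [image_eq_zero_of_notMem_tsupport hx, mul_zero]
    rw [map_add]
    congr 1
    · rw [← hwξ, ← ContinuousLinearMap.mul_apply, ← map_mul, h1]
    · rw [← hvη, ← ContinuousLinearMap.mul_apply, ← map_mul, h2]
  smul_mem' := by
    rintro z ξ ⟨w, hw, hwξ⟩
    exact ⟨w, hw, by rw [map_smul, hwξ]⟩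

lemma map_mem_cs {c : C₀(G, ℂ)} (hc : HasCompactSupport c) (ξ : K) : Φ c ξ ∈ cs Φ := by
  obtain ⟨u, hu, hu1, -⟩ := exists_cut hc.isCompact
  refine ⟨u, hu, ?_⟩
  have h1 : u * c = c := by
    ext x
    rw [ZeroAtInftyContinuousMap.mul_apply]
    by_cases hx : x ∈ tsupport c
    · rw [hu1 x hx, one_mul]
    · rw [image_eq_zero_of_notMem_tsupport hx, mul_zero]
  rw [← ContinuousLinearMap.mul_apply, ← map_mul, h1]

variable {Φ}

theorem dense_cs (h : ND Φ) : Dense (cs Φ : Set K) := by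
  rw [Submodule.dense_iff_topologicalClosure_eq_top, Submodule.topologicalClosure_eq_top_iff,
    Submodule.eq_bot_iff]
  intro η hη
  refine h η fun c => ?_
  have h1 : ∀ d : C₀(G, ℂ), HasCompactSupport d → Φ d η = 0 := by
    intro d hd
    have h2 : HasCompactSupport (star d : C₀(G, ℂ)) := by
      refine hd.mono fun x hx => ?_
      simp only [Function.mem_support, ZeroAtInftyContinuousMap.star_apply] at hx ⊢
      intro h0
      exact hx (by rw [h0, star_zero])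
    have h3 := (Submodule.mem_orthogonal _ _).1 hη _ (map_mem_cs Φ h2 (Φ d η))
    rw [← adj_map, adjoint_inner_left, inner_self_eq_zero] at h3
    exact h3
  by_contra h0
  have hpos : 0 < ‖Φ c η‖ := norm_pos_iff.2 h0
  have hη0 : 0 < ‖η‖ := norm_pos_iff.2 (by rintro rfl; simp at h0)
  obtain ⟨d, hd, hcd⟩ := exists_approx c (ε := ‖Φ c η‖ / (2 * ‖η‖)) (by positivity)
  have h4 : Φ c η = Φ (c - d) η := by rw [map_sub, ContinuousLinearMap.sub_apply, h1 d hd, sub_zero]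
  have h5 : ‖Φ c η‖ ≤ ‖Φ c η‖ / (2 * ‖η‖) * ‖η‖ := by
    conv_lhs => rw [h4]
    exact (le_opNorm _ _).trans (by gcongr; exact (norm_map_le_norm Φ _).trans hcd)
  have h6 : ‖Φ c η‖ / (2 * ‖η‖) * ‖η‖ = ‖Φ c η‖ / 2 := by field_simp
  rw [h6] at h5
  linarith

end dense

section l2

variable {G : Type*} [TopologicalSpace G] [Group G] [IsTopologicalGroup G] [T2Space G]
  [LocallyCompactSpace G] [SecondCountableTopology G] [MeasurableSpace G] [BorelSpace G]
  (μ : Measure G) [μ.IsHaarMeasure] [μ.IsMulRightInvariant]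
  {K : Type*} [NormedAddCommGroup K] [InnerProductSpace ℂ K] [CompleteSpace K]
  {Φ : C₀(G, ℂ) →⋆ₙₐ[ℂ] (K →L[ℂ] K)}

lemma hcs_ltr_mul (d v : C₀(G, ℂ)) (hd : HasCompactSupport d) (hv : HasCompactSupport v) :
    HasCompactSupport (fun g : G => ltr g d * v) := by
  refine HasCompactSupport.intro (K := tsupport v * (tsupport d)⁻¹)
    (hv.isCompact.mul hd.isCompact.inv) fun g hg => ?_
  ext x
  rw [ZeroAtInftyContinuousMap.mul_apply, ltr_apply, ZeroAtInftyContinuousMap.zero_apply]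
  by_contra h
  refine hg ?_
  have h1 : x ∈ tsupport v := by
    by_contra hx
    exact h (by rw [image_eq_zero_of_notMem_tsupport hx, mul_zero])
  have h2 : g⁻¹ * x ∈ tsupport d := by
    by_contra hx
    exact h (by rw [image_eq_zero_of_notMem_tsupport hx, zero_mul])
  exact Set.mem_mul.2 ⟨x, h1, (g⁻¹ * x)⁻¹, Set.inv_mem_inv.2 h2, by group⟩

lemma continuous_ltr_mul (d v : C₀(G, ℂ)) : Continuous (fun g : G => ltr g d * v) :=
  (continuous_ltr d).mul continuous_const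

lemma integrable_ltr_mul (d v : C₀(G, ℂ)) (hd : HasCompactSupport d) (hv : HasCompactSupport v) :
    Integrable (fun g : G => ltr g d * v) μ :=
  (continuous_ltr_mul d v).integrable_of_hasCompactSupport (hcs_ltr_mul d v hd hv)

/-- evaluation at a point as a continuous linear map -/
noncomputable def evl (x : G) : C₀(G, ℂ) →L[ℂ] ℂ :=
  LinearMap.mkContinuous
    { toFun := fun c => c x
      map_add' := fun _ _ => rfl
      map_smul' := fun _ _ => rfl } 1 (fun c => by simpa using norm_apply_le_norm c x)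

lemma evl_apply (x : G) (c : C₀(G, ℂ)) : evl x c = c x := rfl

theorem integral_ltr_mul (d v : C₀(G, ℂ)) (hd : HasCompactSupport d) (hv : HasCompactSupport v) :
    ∫ g, ltr g d * v ∂μ = (∫ g, d g ∂μ) • v := by
  ext x
  rw [← evl_apply x, ← ContinuousLinearMap.integral_comp_comm _ (integrable_ltr_mul μ d v hd hv)]
  simp only [evl_apply, ZeroAtInftyContinuousMap.mul_apply, ltr_apply,
    ZeroAtInftyContinuousMap.smul_apply, smul_eq_mul]
  rw [integral_mul_const, integral_ltr_inv μ (fun g => d g) x]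

/-- `Φ` as a continuous linear map -/
noncomputable def clm (Φ : C₀(G, ℂ) →⋆ₙₐ[ℂ] (K →L[ℂ] K)) : C₀(G, ℂ) →L[ℂ] (K →L[ℂ] K) :=
  LinearMap.mkContinuous
    { toFun := Φ
      map_add' := fun _ _ => map_add _ _ _
      map_smul' := fun _ _ => map_smul _ _ _ } 1 (fun c => by simpa using norm_map_le_norm Φ c)

lemma clm_apply (c : C₀(G, ℂ)) : clm Φ c = Φ c := rfl

lemma cont_fam (c : C₀(G, ℂ)) : Continuous (fun g : G => Φ (ltr g c)) :=
  (clm Φ).continuous.comp (continuous_ltr c)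

lemma integral_inner_cs (d v : C₀(G, ℂ)) (hd : HasCompactSupport d) (hv : HasCompactSupport v)
    (η ξ : K) :
    Integrable (fun g => ⟪η, Φ (ltr g d) (Φ v ξ)⟫_ℂ) μ ∧
    ∫ g, ⟪η, Φ (ltr g d) (Φ v ξ)⟫_ℂ ∂μ = (∫ g, d g ∂μ) * ⟪η, Φ v ξ⟫_ℂ := by
  set L : C₀(G, ℂ) →L[ℂ] ℂ := (innerSL ℂ η) ∘L ((apply ℂ K ξ) ∘L (clm Φ)) with hL
  have hLa : ∀ c, L c = ⟪η, Φ c ξ⟫_ℂ := fun c => rfl
  have h1 : (fun g => ⟪η, Φ (ltr g d) (Φ v ξ)⟫_ℂ) = fun g => L (ltr g d * v) := by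
    funext g
    rw [hLa, map_mul, ContinuousLinearMap.mul_apply]
  rw [h1]
  refine ⟨L.integrable_comp (integrable_ltr_mul μ d v hd hv), ?_⟩
  rw [L.integral_comp_comm (integrable_ltr_mul μ d v hd hv), integral_ltr_mul μ d v hd hv,
    map_smul, hLa, smul_eq_mul]

/-- the `L²` norm (squared) of `c` -/
noncomputable def sq (c : C₀(G, ℂ)) : ℝ := ∫ x, ‖c x‖ ^ 2 ∂μ

lemma sq_nonneg' (c : C₀(G, ℂ)) : 0 ≤ sq μ c := integral_nonneg fun x => by positivity

lemma hcs_star_mul {c : C₀(G, ℂ)} (hc : HasCompactSupport c) : HasCompactSupport (star c * c) :=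
  hc.mul_left (f := (star c : C₀(G, ℂ)))

lemma integral_star_mul (c : C₀(G, ℂ)) : ∫ x, (star c * c) x ∂μ = (sq μ c : ℂ) := by
  rw [sq, ← integral_complex_ofReal]
  refine integral_congr_ae (Eventually.of_forall fun x => ?_)
  change star (c x) * c x = _
  rw [Complex.star_def, ← Complex.normSq_eq_conj_mul_self, Complex.normSq_eq_norm_sq]

lemma sq_int_cs (c : C₀(G, ℂ)) (hc : HasCompactSupport c) {ξ : K} (hξ : ξ ∈ cs Φ) :
    Integrable (fun g => ‖Φ (ltr g c) ξ‖ ^ 2) μ ∧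
    ∫ g, ‖Φ (ltr g c) ξ‖ ^ 2 ∂μ = sq μ c * ‖ξ‖ ^ 2 := by
  obtain ⟨v, hv, hvξ⟩ := hξ
  have h1 := integral_inner_cs μ (Φ := Φ) (star c * c) v (hcs_star_mul hc) hv ξ ξ
  rw [hvξ, integral_star_mul] at h1
  have h2 : (fun g => ⟪ξ, Φ (ltr g (star c * c)) ξ⟫_ℂ) =
      fun g => ((‖Φ (ltr g c) ξ‖ ^ 2 : ℝ) : ℂ) := by
    funext g
    rw [ltr_mulf, ltr_star, norm_sq_eq]
  rw [h2, inner_self_eq_norm_sq_to_K] at h1
  refine ⟨?_, ?_⟩
  · exact h1.1.re
  · have h3 := h1.2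
    rw [integral_complex_ofReal] at h3
    apply Complex.ofReal_injective
    rw [h3]
    push_cast
    rfl

lemma lintegral_cs (c : C₀(G, ℂ)) (hc : HasCompactSupport c) {ξ : K} (hξ : ξ ∈ cs Φ) :
    ∫⁻ g, ‖Φ (ltr g c) ξ‖ₑ ^ 2 ∂μ = ENNReal.ofReal (sq μ c * ‖ξ‖ ^ 2) := by
  obtain ⟨h1, h2⟩ := sq_int_cs μ c hc hξ
  rw [← h2, ofReal_integral_eq_lintegral_ofReal h1 (Eventually.of_forall fun g => by positivity)]
  refine lintegral_congr fun g => ?_
  rw [← ofReal_norm_eq_enorm, ENNReal.ofReal_pow (norm_nonneg _)]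

theorem lintegral_le (h : ND Φ) (c : C₀(G, ℂ)) (hc : HasCompactSupport c) (ξ : K) :
    ∫⁻ g, ‖Φ (ltr g c) ξ‖ₑ ^ 2 ∂μ ≤ ENNReal.ofReal (sq μ c * ‖ξ‖ ^ 2) := by
  obtain ⟨u, hu, hlim⟩ := mem_closure_iff_seq_limit.1 (dense_cs h ξ)
  have h1 : ∀ g, Tendsto (fun n => ‖Φ (ltr g c) (u n)‖ₑ ^ 2) atTop (𝓝 (‖Φ (ltr g c) ξ‖ₑ ^ 2)) := by
    intro g
    have h2 : Tendsto (fun n => Φ (ltr g c) (u n)) atTop (𝓝 (Φ (ltr g c) ξ)) :=
      ((Φ (ltr g c)).continuous.tendsto ξ).comp hlim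
    exact ENNReal.Tendsto.pow (n := 2) h2.enorm
  have h3 : Tendsto (fun n => ENNReal.ofReal (sq μ c * ‖u n‖ ^ 2)) atTop
      (𝓝 (ENNReal.ofReal (sq μ c * ‖ξ‖ ^ 2))) :=
    ENNReal.tendsto_ofReal ((hlim.norm.pow 2).const_mul _)
  calc ∫⁻ g, ‖Φ (ltr g c) ξ‖ₑ ^ 2 ∂μ
      = ∫⁻ g, liminf (fun n => ‖Φ (ltr g c) (u n)‖ₑ ^ 2) atTop ∂μ :=
        lintegral_congr fun g => (h1 g).liminf_eq.symm
    _ ≤ liminf (fun n => ∫⁻ g, ‖Φ (ltr g c) (u n)‖ₑ ^ 2 ∂μ) atTop := by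
        refine lintegral_liminf_le fun n => ?_
        exact (((cont_fam c).clm_apply continuous_const).enorm.measurable).pow_const 2
    _ = liminf (fun n => ENNReal.ofReal (sq μ c * ‖u n‖ ^ 2)) atTop := by
        congr 1
        funext n
        exact lintegral_cs μ c hc (hu n)
    _ = ENNReal.ofReal (sq μ c * ‖ξ‖ ^ 2) := h3.liminf_eq

/-- the family `g ↦ Φ (ltr g c)` is square integrable -/
theorem sqF (h : ND Φ) (c : C₀(G, ℂ)) (hc : HasCompactSupport c) :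
    SqF μ (fun g => Φ (ltr g c)) (Real.sqrt (sq μ c)) where
  meas ξ := ((cont_fam c).clm_apply continuous_const).aestronglyMeasurable
  nn := Real.sqrt_nonneg _
  le ξ := by
    rw [Real.sq_sqrt (sq_nonneg' μ c)]
    exact lintegral_le μ h c hc ξ

lemma norm_col_sq (h : ND Φ) (c : C₀(G, ℂ)) (hc : HasCompactSupport c) (ξ : K) :
    ‖(sqF μ h c hc).col ξ‖ ^ 2 = sq μ c * ‖ξ‖ ^ 2 := by
  have h1 : ∀ ξ ∈ (cs Φ : Set K), ‖(sqF μ h c hc).col ξ‖ ^ 2 = sq μ c * ‖ξ‖ ^ 2 := by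
    intro ξ hξ
    have h2 : ⟪(sqF μ h c hc).col ξ, (sqF μ h c hc).col ξ⟫_ℂ =
        ∫ g, ⟪Φ (ltr g c) ξ, Φ (ltr g c) ξ⟫_ℂ ∂μ := by
      rw [L2.inner_def]
      refine integral_congr_ae ?_
      filter_upwards [(sqF μ h c hc).col_apply ξ] with g h1
      rw [h1]
    have h3 : (fun g => ⟪Φ (ltr g c) ξ, Φ (ltr g c) ξ⟫_ℂ) =
        fun g => ((‖Φ (ltr g c) ξ‖ ^ 2 : ℝ) : ℂ) := by
      funext g
      rw [inner_self_eq_norm_sq_to_K]
      push_cast
      rfl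
    rw [h3, integral_complex_ofReal, (sq_int_cs μ c hc hξ).2, inner_self_eq_norm_sq_to_K] at h2
    apply Complex.ofReal_injective
    rw [← h2]
    push_cast
    rfl
  have h4 : Continuous fun ξ : K => ‖(sqF μ h c hc).col ξ‖ ^ 2 := by fun_prop
  have h5 : Continuous fun ξ : K => sq μ c * ‖ξ‖ ^ 2 := by fun_prop
  exact congrFun (Continuous.ext_on (dense_cs h) h4 h5 h1) ξ

/-- the `L²` identity -/
theorem sq_int (h : ND Φ) (c : C₀(G, ℂ)) (hc : HasCompactSupport c) (ξ : K) :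
    ∫ g, ‖Φ (ltr g c) ξ‖ ^ 2 ∂μ = sq μ c * ‖ξ‖ ^ 2 := by
  have h2 : ⟪(sqF μ h c hc).col ξ, (sqF μ h c hc).col ξ⟫_ℂ =
      ∫ g, ⟪Φ (ltr g c) ξ, Φ (ltr g c) ξ⟫_ℂ ∂μ := by
    rw [L2.inner_def]
    refine integral_congr_ae ?_
    filter_upwards [(sqF μ h c hc).col_apply ξ] with g h1
    rw [h1]
  have h3 : (fun g => ⟪Φ (ltr g c) ξ, Φ (ltr g c) ξ⟫_ℂ) =
      fun g => ((‖Φ (ltr g c) ξ‖ ^ 2 : ℝ) : ℂ) := by
    funext g
    rw [inner_self_eq_norm_sq_to_K]
    push_cast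
    rfl
  rw [h3, integral_complex_ofReal, inner_self_eq_norm_sq_to_K] at h2
  have h4 := norm_col_sq μ h c hc ξ
  apply Complex.ofReal_injective
  rw [← h2, ← h4]
  push_cast
  rfl

lemma integrable_sq (h : ND Φ) (c : C₀(G, ℂ)) (hc : HasCompactSupport c) (ξ : K) :
    Integrable (fun g => ‖Φ (ltr g c) ξ‖ ^ 2) μ := by
  have := (sqF μ h c hc).integrable 1 ξ ξ
  refine this.re.congr (Eventually.of_forall fun g => ?_)
  simp only [ContinuousLinearMap.one_apply]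
  rw [inner_self_eq_norm_sq_to_K]
  norm_cast

end l2

section pin

variable {G : Type*} [MeasurableSpace G] (μ : Measure G)
  {K : Type*} [NormedAddCommGroup K] [InnerProductSpace ℂ K] [CompleteSpace K]

open Classical in
/-- the operator `∫ S(g)* Z S(g) dμ(g)` -/
noncomputable def pin (S : G → K →L[ℂ] K) (Z : K →L[ℂ] K) : K →L[ℂ] K :=
  if h : ∃ C, SqF μ S C then h.choose_spec.pin Z else 0

variable {μ} {S S' : G → K →L[ℂ] K} {C C' : ℝ}

lemma pin_eq (hS : SqF μ S C) (Z : K →L[ℂ] K) : pin μ S Z = hS.pin Z := by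
  have h : ∃ C, SqF μ S C := ⟨C, hS⟩
  rw [pin, dif_pos h]
  refine ext_inner' fun η ξ => ?_
  rw [SqF.inner_pin, SqF.inner_pin]

theorem pin_apply (hS : SqF μ S C) (Z : K →L[ℂ] K) (η ξ : K) :
    ⟪η, pin μ S Z ξ⟫_ℂ = ∫ g, ⟪S g η, Z (S g ξ)⟫_ℂ ∂μ := by
  rw [pin_eq hS, SqF.inner_pin]

theorem pin_add (hS : SqF μ S C) (Z Z' : K →L[ℂ] K) :
    pin μ S (Z + Z') = pin μ S Z + pin μ S Z' := by
  simp only [pin_eq hS, SqF.pin_add]

theorem pin_smul (hS : SqF μ S C) (z : ℂ) (Z : K →L[ℂ] K) :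
    pin μ S (z • Z) = z • pin μ S Z := by
  simp only [pin_eq hS, SqF.pin_smul]

theorem norm_pin (hS : SqF μ S C) (Z : K →L[ℂ] K) : ‖pin μ S Z‖ ≤ C ^ 2 * ‖Z‖ := by
  rw [pin_eq hS]
  exact SqF.norm_pin hS Z

theorem pin_adj (hS : SqF μ S C) (Z : K →L[ℂ] K) : adjoint (pin μ S Z) = pin μ S (adjoint Z) := by
  refine ext_inner' fun η ξ => ?_
  rw [adjoint_inner_right, ← inner_conj_symm, pin_apply hS, pin_apply hS, ← integral_conj]
  refine integral_congr_ae (Eventually.of_forall fun g => ?_)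
  simp only
  rw [inner_conj_symm, adjoint_inner_right]

theorem pin_pos (hS : SqF μ S C) {Z : K →L[ℂ] K} (hZ : 0 ≤ Z) : 0 ≤ pin μ S Z := by
  rw [nonneg_iff_isPositive] at hZ ⊢
  rw [isPositive_def']
  refine ⟨?_, fun x => ?_⟩
  · rw [IsSelfAdjoint, star_eq_adjoint, pin_adj hS, ← star_eq_adjoint, hZ.isSelfAdjoint.star_eq]
  · rw [reApplyInnerSelf_apply, ← inner_conj_symm, RCLike.conj_re, pin_apply hS, ← integral_re (hS.integrable Z x x)]
    refine integral_nonneg fun g => ?_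
    have := hZ.re_inner_nonneg_right (S g x)
    exact this

theorem pin_sub_le (hS : SqF μ S C) (hS' : SqF μ S' C') {D : ℝ}
    (hD : SqF μ (fun g => S g - S' g) D) (Z : K →L[ℂ] K) :
    ‖pin μ S Z - pin μ S' Z‖ ≤ (C + C') * D * ‖Z‖ := by
  rw [pin_eq hS, pin_eq hS']
  exact SqF.pin_sub_le hS hS' hD Z

theorem pin_conj (hS : SqF μ S C) (hS' : SqF μ S' C')
    {U U' : K →L[ℂ] K} (hU : adjoint U = U') (hUU : U' * U = 1) (σ : G → G)
    (hσ : MeasurePreserving σ μ μ) (hσe : MeasurableEmbedding σ)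
    (h : ∀ g, U * S g * U' = S' (σ g)) (Z : K →L[ℂ] K) :
    U * pin μ S Z * U' = pin μ S' (U * Z * U') := by
  rw [pin_eq hS, pin_eq hS']
  exact SqF.pin_conj hS hS' hU hUU σ hσ hσe h Z

/-- `pin` is a bimodule map over the commutant of the family -/
theorem pin_mul_right (hS : SqF μ S C) {T : K →L[ℂ] K} (hT : ∀ g, S g * T = T * S g)
    (Z : K →L[ℂ] K) : pin μ S (Z * T) = pin μ S Z * T := by
  refine ext_inner' fun η ξ => ?_
  rw [ContinuousLinearMap.mul_apply, pin_apply hS, pin_apply hS]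
  refine integral_congr_ae (Eventually.of_forall fun g => ?_)
  have := congrArg (fun A : K →L[ℂ] K => A ξ) (hT g)
  simp only [ContinuousLinearMap.mul_apply] at this ⊢
  rw [this]

theorem pin_mul_left (hS : SqF μ S C) {T : K →L[ℂ] K} (hT : ∀ g, S g * adjoint T = adjoint T * S g)
    (Z : K →L[ℂ] K) : pin μ S (T * Z) = T * pin μ S Z := by
  refine ext_inner' fun η ξ => ?_
  rw [ContinuousLinearMap.mul_apply, ← adjoint_inner_left T, pin_apply hS, pin_apply hS]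
  refine integral_congr_ae (Eventually.of_forall fun g => ?_)
  have := congrArg (fun A : K →L[ℂ] K => A η) (hT g)
  simp only [ContinuousLinearMap.mul_apply] at this ⊢
  rw [this, adjoint_inner_left]

end pin

section comm

variable {G : Type*} [TopologicalSpace G] [Group G] [IsTopologicalGroup G] [T2Space G]
  [LocallyCompactSpace G] [SecondCountableTopology G] [MeasurableSpace G] [BorelSpace G]
  {μ : Measure G} [μ.IsHaarMeasure] [μ.IsMulRightInvariant]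
  {K : Type*} [NormedAddCommGroup K] [InnerProductSpace ℂ K] [CompleteSpace K]
  {Φ : C₀(G, ℂ) →⋆ₙₐ[ℂ] (K →L[ℂ] K)}

/-- the pinching with the bump `c` -/
noncomputable def pinC (μ : Measure G) (Φ : C₀(G, ℂ) →⋆ₙₐ[ℂ] (K →L[ℂ] K)) (c : C₀(G, ℂ))
    (Z : K →L[ℂ] K) : K →L[ℂ] K := pin μ (fun g => Φ (ltr g c)) Z

theorem pinC_apply (h : ND Φ) {c : C₀(G, ℂ)} (hc : HasCompactSupport c) (Z : K →L[ℂ] K)
    (η ξ : K) :
    ⟪η, pinC μ Φ c Z ξ⟫_ℂ = ∫ g, ⟪Φ (ltr g c) η, Z (Φ (ltr g c) ξ)⟫_ℂ ∂μ :=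
  pin_apply (sqF μ h c hc) Z η ξ

theorem pinC_one (h : ND Φ) {c : C₀(G, ℂ)} (hc : HasCompactSupport c) :
    pinC μ Φ c 1 = (sq μ c : ℂ) • (1 : K →L[ℂ] K) := by
  refine (ContinuousLinearMap.coe_inj).1 ((ext_inner_map _ _).1 fun x => ?_)
  change ⟪pinC μ Φ c 1 x, x⟫_ℂ = ⟪((sq μ c : ℂ) • (1 : K →L[ℂ] K)) x, x⟫_ℂ
  have h3 : (fun g => ⟪Φ (ltr g c) x, (1 : K →L[ℂ] K) (Φ (ltr g c) x)⟫_ℂ) =
      fun g => ((‖Φ (ltr g c) x‖ ^ 2 : ℝ) : ℂ) := by
    funext g
    rw [ContinuousLinearMap.one_apply, inner_self_eq_norm_sq_to_K]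
    push_cast
    rfl
  rw [← inner_conj_symm, pinC_apply h hc, h3, integral_complex_ofReal, sq_int μ h c hc,
    Complex.conj_ofReal, ContinuousLinearMap.smul_apply, ContinuousLinearMap.one_apply,
    inner_smul_left, Complex.conj_ofReal, inner_self_eq_norm_sq_to_K]
  push_cast
  rfl

theorem norm_pinC (h : ND Φ) {c : C₀(G, ℂ)} (hc : HasCompactSupport c) (Z : K →L[ℂ] K) :
    ‖pinC μ Φ c Z‖ ≤ sq μ c * ‖Z‖ := by
  have := norm_pin (sqF μ h c hc) Z
  rwa [Real.sq_sqrt (sq_nonneg' μ c)] at this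

/-- the family `g ↦ Φ (a_g)` with `|a_g| ≤ δ |ltr g c|` is square integrable -/
theorem sqF_of_le (h : ND Φ) {c : C₀(G, ℂ)} (hc : HasCompactSupport c) {a : G → C₀(G, ℂ)}
    (ha : Continuous a) {δ : ℝ} (hδ : 0 ≤ δ) (hle : ∀ g x, ‖a g x‖ ≤ δ * ‖ltr g c x‖) :
    SqF μ (fun g => Φ (a g)) (δ * Real.sqrt (sq μ c)) where
  meas ξ := (((clm Φ).continuous.comp ha).clm_apply continuous_const).aestronglyMeasurable
  nn := mul_nonneg hδ (Real.sqrt_nonneg _)
  le ξ := by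
    have h1 := lintegral_le μ h c hc ξ
    calc ∫⁻ g, ‖Φ (a g) ξ‖ₑ ^ 2 ∂μ
        ≤ ∫⁻ g, ENNReal.ofReal (δ ^ 2) * ‖Φ (ltr g c) ξ‖ₑ ^ 2 ∂μ := by
          refine lintegral_mono fun g => ?_
          have h2 := norm_map_le Φ hδ (hle g) ξ
          rw [← ofReal_norm_eq_enorm, ← ofReal_norm_eq_enorm, ← ENNReal.ofReal_pow (norm_nonneg _),
            ← ENNReal.ofReal_pow (norm_nonneg _), ← ENNReal.ofReal_mul (by positivity)]
          refine ENNReal.ofReal_le_ofReal ?_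
          rw [← mul_pow]
          gcongr
      _ = ENNReal.ofReal (δ ^ 2) * ∫⁻ g, ‖Φ (ltr g c) ξ‖ₑ ^ 2 ∂μ := by
          rw [lintegral_const_mul' _ _ ENNReal.ofReal_ne_top]
      _ ≤ ENNReal.ofReal (δ ^ 2) * ENNReal.ofReal (sq μ c * ‖ξ‖ ^ 2) := by gcongr
      _ = ENNReal.ofReal ((δ * Real.sqrt (sq μ c)) ^ 2 * ‖ξ‖ ^ 2) := by
          rw [← ENNReal.ofReal_mul (by positivity), mul_pow, Real.sq_sqrt (sq_nonneg' μ c)]
          congr 1
          ring

/-- the commutator bound -/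
theorem comm_le (h : ND Φ) {c : C₀(G, ℂ)} (hc : HasCompactSupport c) (χ : C₀(G, ℂ)) {δ : ℝ}
    (hδ : 0 ≤ δ) (hχ : ∀ g s, c s ≠ 0 → ‖χ (g * s) - χ g‖ ≤ δ) (Z : K →L[ℂ] K) :
    ‖pinC μ Φ c Z * Φ χ - Φ χ * pinC μ Φ c Z‖ ≤ 2 * δ * sq μ c * ‖Z‖ := by
  have hS := sqF μ h c hc
  -- the two families
  have key : ∀ χ' : C₀(G, ℂ), (∀ g s, c s ≠ 0 → ‖χ' (g * s) - χ' g‖ ≤ δ) →
      SqF μ (fun g => Φ (ltr g c * χ' - χ' g • ltr g c)) (δ * Real.sqrt (sq μ c)) := by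
    intro χ' hχ'
    refine sqF_of_le h hc ?_ hδ fun g x => ?_
    · exact ((continuous_ltr c).mul continuous_const).sub
        ((map_continuous χ').smul (continuous_ltr c))
    · simp only [ZeroAtInftyContinuousMap.sub_apply, ZeroAtInftyContinuousMap.mul_apply,
        ZeroAtInftyContinuousMap.smul_apply, smul_eq_mul, ltr_apply]
      by_cases h0 : c (g⁻¹ * x) = 0
      · rw [h0]; simp
      · have h1 := hχ' g _ h0
        rw [mul_inv_cancel_left] at h1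
        have h2 : c (g⁻¹ * x) * χ' x - χ' g * c (g⁻¹ * x) = (χ' x - χ' g) * c (g⁻¹ * x) := by ring
        rw [h2, norm_mul]
        gcongr
  have k1 := key χ hχ
  have k2 := key (star χ) (fun g s hs => by
    have := hχ g s hs
    rw [ZeroAtInftyContinuousMap.star_apply, ZeroAtInftyContinuousMap.star_apply, ← star_sub,
      norm_star]
    exact this)
  have e1 : ∀ g ξ, Φ (ltr g c) (Φ χ ξ) =
      Φ (ltr g c * χ - χ g • ltr g c) ξ + χ g • Φ (ltr g c) ξ := by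
    intro g ξ
    rw [map_sub, map_mul, map_smul, ContinuousLinearMap.sub_apply, ContinuousLinearMap.smul_apply,
      ContinuousLinearMap.mul_apply]
    abel
  have e2 : ∀ g η, Φ (ltr g c) (Φ (star χ) η) =
      Φ (ltr g c * star χ - (star χ : C₀(G, ℂ)) g • ltr g c) η + star (χ g) • Φ (ltr g c) η := by
    intro g ξ
    rw [map_sub, map_mul, map_smul, ContinuousLinearMap.sub_apply, ContinuousLinearMap.smul_apply,
      ContinuousLinearMap.mul_apply, ZeroAtInftyContinuousMap.star_apply]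
    abel
  have hsq : Real.sqrt (sq μ c) * Real.sqrt (sq μ c) = sq μ c :=
    Real.mul_self_sqrt (sq_nonneg' μ c)
  refine norm_le_of_inner (by have := sq_nonneg' μ c; positivity) fun η ξ => ?_
  have h1 : ⟪η, (pinC μ Φ c Z * Φ χ - Φ χ * pinC μ Φ c Z) ξ⟫_ℂ =
      (∫ g, ⟪Φ (ltr g c) η, Z (Φ (ltr g c * χ - χ g • ltr g c) ξ)⟫_ℂ ∂μ) -
      ∫ g, ⟪Φ (ltr g c * star χ - (star χ : C₀(G, ℂ)) g • ltr g c) η, Z (Φ (ltr g c) ξ)⟫_ℂ ∂μ := by
    rw [ContinuousLinearMap.sub_apply, inner_sub_right, ContinuousLinearMap.mul_apply,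
      ContinuousLinearMap.mul_apply, ← adjoint_inner_left (Φ χ), adj_map, pinC_apply h hc,
      pinC_apply h hc, ← integral_sub, ← integral_sub]
    · refine integral_congr_ae (Eventually.of_forall fun g => ?_)
      simp only
      rw [e1, e2, map_add, map_smul, inner_add_right, inner_add_left, inner_smul_right,
        inner_smul_left, Complex.star_def, Complex.conj_conj]
      ring
    · exact hS.integrable_mixed k1 Z η ξ
    · exact k2.integrable_mixed hS Z η ξ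
    · exact hS.integrable Z η (Φ χ ξ)
    · exact hS.integrable Z (Φ (star χ) η) ξ
  rw [h1]
  calc _ ≤ Real.sqrt (sq μ c) * (δ * Real.sqrt (sq μ c)) * ‖Z‖ * ‖η‖ * ‖ξ‖ +
        (δ * Real.sqrt (sq μ c)) * Real.sqrt (sq μ c) * ‖Z‖ * ‖η‖ * ‖ξ‖ :=
        (norm_sub_le _ _).trans (add_le_add (hS.mixed k1 Z η ξ) (k2.mixed hS Z η ξ))
    _ = 2 * δ * (Real.sqrt (sq μ c) * Real.sqrt (sq μ c)) * ‖Z‖ * ‖η‖ * ‖ξ‖ := by ring
    _ = _ := by rw [hsq]

theorem pinC_pos (h : ND Φ) {c : C₀(G, ℂ)} (hc : HasCompactSupport c) {Z : K →L[ℂ] K}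
    (hZ : 0 ≤ Z) : 0 ≤ pinC μ Φ c Z := pin_pos (sqF μ h c hc) hZ

theorem pinC_add (h : ND Φ) {c : C₀(G, ℂ)} (hc : HasCompactSupport c) (Z Z' : K →L[ℂ] K) :
    pinC μ Φ c (Z + Z') = pinC μ Φ c Z + pinC μ Φ c Z' := pin_add (sqF μ h c hc) Z Z'

theorem pinC_smul (h : ND Φ) {c : C₀(G, ℂ)} (hc : HasCompactSupport c) (z : ℂ) (Z : K →L[ℂ] K) :
    pinC μ Φ c (z • Z) = z • pinC μ Φ c Z := pin_smul (sqF μ h c hc) z Z

/-- bumps close in `L²` have close pinchings -/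
theorem pinC_sub_le (h : ND Φ) {c c' : C₀(G, ℂ)} (hc : HasCompactSupport c)
    (hc' : HasCompactSupport c') (Z : K →L[ℂ] K) :
    ‖pinC μ Φ c Z - pinC μ Φ c' Z‖ ≤
      (Real.sqrt (sq μ c) + Real.sqrt (sq μ c')) * Real.sqrt (sq μ (c - c')) * ‖Z‖ := by
  have hd : HasCompactSupport (c - c' : C₀(G, ℂ)) := by
    have := hc.sub hc'
    exact this
  refine pin_sub_le (sqF μ h c hc) (sqF μ h c' hc') ?_ Z
  have := sqF μ h (c - c') hd
  simpa only [ltr_sub, map_sub] using this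

lemma hcs_rtr {c : C₀(G, ℂ)} (hc : HasCompactSupport c) (h : G) : HasCompactSupport (rtr h c) :=
  hc.comp_homeomorph (Homeomorph.mulRight h)

lemma hcs_ltr {c : C₀(G, ℂ)} (hc : HasCompactSupport c) (h : G) : HasCompactSupport (ltr h c) :=
  hc.comp_homeomorph (Homeomorph.mulLeft h⁻¹)

lemma hcs_cj {c : C₀(G, ℂ)} (hc : HasCompactSupport c) (u : G) : HasCompactSupport (cj u c) :=
  hcs_rtr (hcs_ltr hc u) u

lemma sq_rtr (h : G) (c : C₀(G, ℂ)) : sq μ (rtr h c) = sq μ c :=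
  integral_mul_right_eq_self (fun x => ‖c x‖ ^ 2) h

lemma sq_ltr (h : G) (c : C₀(G, ℂ)) : sq μ (ltr h c) = sq μ c :=
  integral_mul_left_eq_self (fun x => ‖c x‖ ^ 2) h⁻¹

lemma sq_cj (u : G) (c : C₀(G, ℂ)) : sq μ (cj u c) = sq μ c := by
  rw [cj, sq_rtr, sq_ltr]

/-- left covariance: a unitary with `U Φ(c) U' = Φ(ltr a c)` commutes with the pinching -/
theorem pinC_ltr (h : ND Φ) {c : C₀(G, ℂ)} (hc : HasCompactSupport c) {U U' : K →L[ℂ] K} {a : G}
    (hU : adjoint U = U') (hUU : U' * U = 1) (hcov : ∀ c, U * Φ c * U' = Φ (ltr a c))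
    (Z : K →L[ℂ] K) : U * pinC μ Φ c Z * U' = pinC μ Φ c (U * Z * U') :=
  pin_conj (sqF μ h c hc) (sqF μ h c hc) hU hUU (fun g => a * g) (measurePreserving_mul_left μ a)
    (measurableEmbedding_mulLeft a) (fun g => by rw [hcov, ltr_mul]) Z

/-- right covariance -/
theorem pinC_rtr (h : ND Φ) {c : C₀(G, ℂ)} (hc : HasCompactSupport c) {U U' : K →L[ℂ] K} {u : G}
    (hU : adjoint U = U') (hUU : U' * U = 1) (hcov : ∀ c, U * Φ c * U' = Φ (rtr u c))
    (Z : K →L[ℂ] K) : U * pinC μ Φ c Z * U' = pinC μ Φ (cj u c) (U * Z * U') :=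
  pin_conj (sqF μ h c hc) (sqF μ h (cj u c) (hcs_cj hc u)) hU hUU (fun g => g * u⁻¹)
    (measurePreserving_mul_right μ u⁻¹) (measurableEmbedding_mulRight u⁻¹)
    (fun g => by rw [hcov, rtr_ltr]) Z

/-- a unitary commuting with `Φ` passes through the pinching -/
theorem pinC_cm (h : ND Φ) {c : C₀(G, ℂ)} (hc : HasCompactSupport c) {U U' : K →L[ℂ] K}
    (hU : adjoint U = U') (hUU : U' * U = 1) (hcov : ∀ c, U * Φ c * U' = Φ c)
    (Z : K →L[ℂ] K) : U * pinC μ Φ c Z * U' = pinC μ Φ c (U * Z * U') :=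
  pinC_ltr (a := 1) h hc hU hUU (fun c => by rw [hcov, ltr_one]) Z

/-- operators commuting with `Φ` and with `Z` commute with the pinching -/
theorem pinC_commute (h : ND Φ) {c : C₀(G, ℂ)} (hc : HasCompactSupport c) {T : K →L[ℂ] K}
    (hT : ∀ c, Φ c * T = T * Φ c) {Z : K →L[ℂ] K} (hZ : Z * T = T * Z) :
    pinC μ Φ c Z * T = T * pinC μ Φ c Z := by
  have hT' : ∀ c, Φ c * adjoint T = adjoint T * Φ c := by
    intro c
    have h1 := congrArg adjoint (hT (star c))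
    rw [ContinuousLinearMap.mul_def, ContinuousLinearMap.mul_def, adjoint_comp, adjoint_comp,
      adj_map, star_star] at h1
    exact h1.symm
  have h1 := pin_mul_right (sqF μ h c hc) (T := T) (fun g => hT _) Z
  have h2 := pin_mul_left (sqF μ h c hc) (T := T) (fun g => hT' _) Z
  rw [pinC, ← h1, hZ, h2]

end comm

end Vale.Agent.P092.H295
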