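import Mathlib

/-!
P092, [D-XC] (helper295): pinching operators. For a square integrable family `S` of operators,
`pin μ S Z` is the operator `∫ S(g)* Z S(g) dμ(g)`.
-/

set_option linter.all false

open scoped InnerProductSpace ENNReal Topology
open Filter Topology ContinuousLinearMap MeasureTheory

namespace Vale.Agent.P092.H295

variable {G : Type*} [MeasurableSpace G] {μ : Measure G}
  {K : Type*} [NormedAddCommGroup K] [InnerProductSpace ℂ K] [CompleteSpace K]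

/-- square integrable families of operators, with constant `C` -/
structure SqF (μ : Measure G) (S : G → K →L[ℂ] K) (C : ℝ) : Prop where
  meas : ∀ ξ, AEStronglyMeasurable (fun g => S g ξ) μ
  nn : 0 ≤ C
  le : ∀ ξ, ∫⁻ g, ‖S g ξ‖ₑ ^ 2 ∂μ ≤ ENNReal.ofReal (C ^ 2 * ‖ξ‖ ^ 2)

lemma eLpNorm_two_le {E : Type*} [NormedAddCommGroup E] {f : G → E} {B : ℝ} (hB : 0 ≤ B)
    (h : ∫⁻ g, ‖f g‖ₑ ^ 2 ∂μ ≤ ENNReal.ofReal (B ^ 2)) : eLpNorm f 2 μ ≤ ENNReal.ofReal B := by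
  rw [eLpNorm_eq_lintegral_rpow_enorm_toReal two_ne_zero ENNReal.ofNat_ne_top]
  have h2 : (2 : ℝ≥0∞).toReal = 2 := by simp
  rw [h2]
  have h3 : ∫⁻ g, ‖f g‖ₑ ^ (2 : ℝ) ∂μ ≤ ENNReal.ofReal (B ^ 2) := by
    refine le_trans (le_of_eq ?_) h
    refine lintegral_congr fun g => ?_
    exact_mod_cast ENNReal.rpow_natCast (‖f g‖ₑ) 2
  calc (∫⁻ g, ‖f g‖ₑ ^ (2 : ℝ) ∂μ) ^ (1 / (2 : ℝ)) ≤ (ENNReal.ofReal (B ^ 2)) ^ (1 / (2 : ℝ)) :=
        ENNReal.rpow_le_rpow h3 (by norm_num)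
    _ = ENNReal.ofReal B := by
        rw [ENNReal.ofReal_rpow_of_nonneg (by positivity) (by norm_num)]
        congr 1
        rw [← Real.sqrt_eq_rpow, Real.sqrt_sq hB]

lemma SqF.eLp {S : G → K →L[ℂ] K} {C : ℝ} (hS : SqF μ S C) (ξ : K) :
    eLpNorm (fun g => S g ξ) 2 μ ≤ ENNReal.ofReal (C * ‖ξ‖) :=
  eLpNorm_two_le (mul_nonneg hS.nn (norm_nonneg _)) (by rw [mul_pow]; exact hS.le ξ)

lemma SqF.memLp {S : G → K →L[ℂ] K} {C : ℝ} (hS : SqF μ S C) (ξ : K) :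
    MemLp (fun g => S g ξ) 2 μ :=
  ⟨hS.meas ξ, lt_of_le_of_lt (hS.eLp ξ) ENNReal.ofReal_lt_top⟩

/-- the column of a square integrable family -/
noncomputable def SqF.col {S : G → K →L[ℂ] K} {C : ℝ} (hS : SqF μ S C) : K →L[ℂ] Lp K 2 μ :=
  LinearMap.mkContinuous
    { toFun := fun ξ => (hS.memLp ξ).toLp _
      map_add' := fun ξ η => by
        rw [← MemLp.toLp_add]
        exact MemLp.toLp_congr _ _ (Eventually.of_forall fun g => by simp)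
      map_smul' := fun c ξ => by
        rw [RingHom.id_apply, ← MemLp.toLp_const_smul]
        exact MemLp.toLp_congr _ _ (Eventually.of_forall fun g => by simp) } C (by
      intro ξ
      change ‖(hS.memLp ξ).toLp _‖ ≤ _
      rw [Lp.norm_toLp]
      exact ENNReal.toReal_le_of_le_ofReal (mul_nonneg hS.nn (norm_nonneg _)) (hS.eLp ξ))

lemma SqF.col_apply {S : G → K →L[ℂ] K} {C : ℝ} (hS : SqF μ S C) (ξ : K) :
    (hS.col ξ : G → K) =ᵐ[μ] fun g => S g ξ := (hS.memLp ξ).coeFn_toLp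

lemma SqF.norm_col {S : G → K →L[ℂ] K} {C : ℝ} (hS : SqF μ S C) : ‖hS.col‖ ≤ C :=
  LinearMap.mkContinuous_norm_le _ hS.nn _

/-- the pinching operator -/
noncomputable def SqF.pin {S : G → K →L[ℂ] K} {C : ℝ} (hS : SqF μ S C) (Z : K →L[ℂ] K) :
    K →L[ℂ] K := adjoint hS.col ∘L (Z.compLpL 2 μ) ∘L hS.col

lemma SqF.inner_pin {S : G → K →L[ℂ] K} {C : ℝ} (hS : SqF μ S C) (Z : K →L[ℂ] K) (η ξ : K) :
    ⟪η, hS.pin Z ξ⟫_ℂ = ∫ g, ⟪S g η, Z (S g ξ)⟫_ℂ ∂μ := by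
  have h : ⟪η, hS.pin Z ξ⟫_ℂ = ⟪hS.col η, (Z.compLpL 2 μ) (hS.col ξ)⟫_ℂ := by
    simp only [SqF.pin, ContinuousLinearMap.comp_apply]
    rw [adjoint_inner_right]
  rw [h, L2.inner_def]
  refine integral_congr_ae ?_
  filter_upwards [hS.col_apply η, hS.col_apply ξ, coeFn_compLpL Z (hS.col ξ)] with g h1 h2 h3
  rw [h1, h3, h2]

lemma SqF.integrable {S : G → K →L[ℂ] K} {C : ℝ} (hS : SqF μ S C) (Z : K →L[ℂ] K) (η ξ : K) :
    Integrable (fun g => ⟪S g η, Z (S g ξ)⟫_ℂ) μ := by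
  refine (L2.integrable_inner (𝕜 := ℂ) (hS.col η) ((Z.compLpL 2 μ) (hS.col ξ))).congr ?_
  filter_upwards [hS.col_apply η, hS.col_apply ξ, coeFn_compLpL Z (hS.col ξ)] with g h1 h2 h3
  rw [h1, h3, h2]

lemma ext_inner' {T T' : K →L[ℂ] K} (h : ∀ η ξ, ⟪η, T ξ⟫_ℂ = ⟪η, T' ξ⟫_ℂ) : T = T' :=
  ContinuousLinearMap.ext fun ξ => ext_inner_left ℂ fun η => h η ξ

lemma SqF.pin_add {S : G → K →L[ℂ] K} {C : ℝ} (hS : SqF μ S C) (Z Z' : K →L[ℂ] K) :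
    hS.pin (Z + Z') = hS.pin Z + hS.pin Z' := by
  refine ext_inner' fun η ξ => ?_
  rw [ContinuousLinearMap.add_apply, inner_add_right, hS.inner_pin, hS.inner_pin, hS.inner_pin,
    ← integral_add (hS.integrable Z η ξ) (hS.integrable Z' η ξ)]
  refine integral_congr_ae (Eventually.of_forall fun g => ?_)
  simp [inner_add_right]

lemma SqF.pin_smul {S : G → K →L[ℂ] K} {C : ℝ} (hS : SqF μ S C) (z : ℂ) (Z : K →L[ℂ] K) :
    hS.pin (z • Z) = z • hS.pin Z := by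
  refine ext_inner' fun η ξ => ?_
  rw [ContinuousLinearMap.smul_apply, inner_smul_right, hS.inner_pin, hS.inner_pin,
    ← integral_const_mul]
  refine integral_congr_ae (Eventually.of_forall fun g => ?_)
  simp [inner_smul_right]

lemma norm_compLpL_le' (Z : K →L[ℂ] K) : ‖(Z.compLpL 2 μ : Lp K 2 μ →L[ℂ] Lp K 2 μ)‖ ≤ ‖Z‖ :=
  norm_compLpL_le Z

lemma SqF.norm_pin {S : G → K →L[ℂ] K} {C : ℝ} (hS : SqF μ S C) (Z : K →L[ℂ] K) :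
    ‖hS.pin Z‖ ≤ C ^ 2 * ‖Z‖ := by
  have h1 : ‖hS.pin Z‖ ≤ ‖adjoint hS.col‖ * (‖(Z.compLpL 2 μ : Lp K 2 μ →L[ℂ] Lp K 2 μ)‖ * ‖hS.col‖) :=
    (opNorm_comp_le _ _).trans (by gcongr; exact opNorm_comp_le _ _)
  have h2 : ‖adjoint hS.col‖ ≤ C := by
    rw [LinearIsometryEquiv.norm_map]
    exact hS.norm_col
  calc ‖hS.pin Z‖ ≤ C * (‖Z‖ * C) := h1.trans (by
        gcongr
        · exact hS.nn
        · exact norm_compLpL_le' Z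
        · exact hS.norm_col)
    _ = C ^ 2 * ‖Z‖ := by ring

/-- the mixed estimate -/
lemma SqF.mixed {S S' : G → K →L[ℂ] K} {C C' : ℝ} (hS : SqF μ S C) (hS' : SqF μ S' C')
    (Z : K →L[ℂ] K) (η ξ : K) :
    ‖∫ g, ⟪S g η, Z (S' g ξ)⟫_ℂ ∂μ‖ ≤ C * C' * ‖Z‖ * ‖η‖ * ‖ξ‖ := by
  have h : ∫ g, ⟪S g η, Z (S' g ξ)⟫_ℂ ∂μ = ⟪hS.col η, (Z.compLpL 2 μ) (hS'.col ξ)⟫_ℂ := by
    rw [L2.inner_def]
    refine integral_congr_ae ?_
    filter_upwards [hS.col_apply η, hS'.col_apply ξ, coeFn_compLpL Z (hS'.col ξ)] with g h1 h2 h3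
    rw [h1, h3, h2]
  rw [h]
  have h1 : ‖hS.col η‖ ≤ C * ‖η‖ := (le_opNorm _ _).trans (by gcongr; exact hS.norm_col)
  have h2 : ‖hS'.col ξ‖ ≤ C' * ‖ξ‖ := (le_opNorm _ _).trans (by gcongr; exact hS'.norm_col)
  have h3 : ‖(Z.compLpL 2 μ : Lp K 2 μ →L[ℂ] Lp K 2 μ) (hS'.col ξ)‖ ≤ ‖Z‖ * (C' * ‖ξ‖) :=
    (le_opNorm _ _).trans (by gcongr; exact norm_compLpL_le' Z)
  calc ‖⟪hS.col η, (Z.compLpL 2 μ) (hS'.col ξ)⟫_ℂ‖ ≤ ‖hS.col η‖ * ‖(Z.compLpL 2 μ) (hS'.col ξ)‖ :=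
        norm_inner_le_norm _ _
    _ ≤ (C * ‖η‖) * (‖Z‖ * (C' * ‖ξ‖)) := by
        have := hS.nn
        gcongr
    _ = C * C' * ‖Z‖ * ‖η‖ * ‖ξ‖ := by ring

lemma SqF.integrable_mixed {S S' : G → K →L[ℂ] K} {C C' : ℝ} (hS : SqF μ S C)
    (hS' : SqF μ S' C') (Z : K →L[ℂ] K) (η ξ : K) :
    Integrable (fun g => ⟪S g η, Z (S' g ξ)⟫_ℂ) μ := by
  refine (L2.integrable_inner (𝕜 := ℂ) (hS.col η) ((Z.compLpL 2 μ) (hS'.col ξ))).congr ?_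
  filter_upwards [hS.col_apply η, hS'.col_apply ξ, coeFn_compLpL Z (hS'.col ξ)] with g h1 h2 h3
  rw [h1, h3, h2]

/-- norm bound from the inner products -/
lemma norm_le_of_inner {T : K →L[ℂ] K} {B : ℝ} (hB : 0 ≤ B)
    (h : ∀ η ξ, ‖⟪η, T ξ⟫_ℂ‖ ≤ B * ‖η‖ * ‖ξ‖) : ‖T‖ ≤ B := by
  refine opNorm_le_bound _ hB fun ξ => ?_
  by_cases h0 : T ξ = 0
  · rw [h0, norm_zero]; positivity
  have h1 := h (T ξ) ξ
  rw [inner_self_eq_norm_sq_to_K] at h1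
  have h2 : 0 < ‖T ξ‖ := norm_pos_iff.2 h0
  have h3 : ‖T ξ‖ * ‖T ξ‖ ≤ ‖T ξ‖ * (B * ‖ξ‖) := by
    have : ‖((‖T ξ‖ : ℂ)) ^ 2‖ = ‖T ξ‖ * ‖T ξ‖ := by
      rw [norm_pow, Complex.norm_real, norm_norm, sq]
    calc ‖T ξ‖ * ‖T ξ‖ = ‖((‖T ξ‖ : ℂ)) ^ 2‖ := this.symm
      _ ≤ B * ‖T ξ‖ * ‖ξ‖ := by exact_mod_cast h1
      _ = _ := by ring
  exact le_of_mul_le_mul_left h3 h2

/-- pinchings with close families are close -/
theorem SqF.pin_sub_le {S S' : G → K →L[ℂ] K} {C C' D : ℝ} (hS : SqF μ S C) (hS' : SqF μ S' C')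
    (hD : SqF μ (fun g => S g - S' g) D) (Z : K →L[ℂ] K) :
    ‖hS.pin Z - hS'.pin Z‖ ≤ (C + C') * D * ‖Z‖ := by
  refine norm_le_of_inner (by have := hS.nn; have := hS'.nn; have := hD.nn; positivity)
    fun η ξ => ?_
  have h : ⟪η, (hS.pin Z - hS'.pin Z) ξ⟫_ℂ =
      (∫ g, ⟪S g η, Z ((S g - S' g) ξ)⟫_ℂ ∂μ) + ∫ g, ⟪(S g - S' g) η, Z (S' g ξ)⟫_ℂ ∂μ := by
    rw [ContinuousLinearMap.sub_apply, inner_sub_right, hS.inner_pin, hS'.inner_pin,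
      ← integral_sub (hS.integrable Z η ξ) (hS'.integrable Z η ξ),
      ← integral_add (hS.integrable_mixed hD Z η ξ) (hD.integrable_mixed hS' Z η ξ)]
    refine integral_congr_ae (Eventually.of_forall fun g => ?_)
    simp only [ContinuousLinearMap.sub_apply, map_sub, inner_sub_right, inner_sub_left]
    ring
  rw [h]
  calc ‖(∫ g, ⟪S g η, Z ((S g - S' g) ξ)⟫_ℂ ∂μ) + ∫ g, ⟪(S g - S' g) η, Z (S' g ξ)⟫_ℂ ∂μ‖
      ≤ C * D * ‖Z‖ * ‖η‖ * ‖ξ‖ + D * C' * ‖Z‖ * ‖η‖ * ‖ξ‖ :=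
        (norm_add_le _ _).trans (add_le_add (hS.mixed hD Z η ξ) (hD.mixed hS' Z η ξ))
    _ = (C + C') * D * ‖Z‖ * ‖η‖ * ‖ξ‖ := by ring

/-- transport by a unitary operator (`U * U' = 1`, `adjoint U = U'`) which permutes the family -/
theorem SqF.pin_conj {S S' : G → K →L[ℂ] K} {C C' : ℝ} (hS : SqF μ S C) (hS' : SqF μ S' C')
    {U U' : K →L[ℂ] K} (hU : adjoint U = U') (hUU : U' * U = 1) (σ : G → G)
    (hσ : MeasurePreserving σ μ μ) (hσe : MeasurableEmbedding σ)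
    (h : ∀ g, U * S g * U' = S' (σ g)) (Z : K →L[ℂ] K) :
    U * hS.pin Z * U' = hS'.pin (U * Z * U') := by
  have hin : ∀ x y : K, ⟪U x, U y⟫_ℂ = ⟪x, y⟫_ℂ := by
    intro x y
    rw [← adjoint_inner_left, hU]
    have : U' (U x) = x := by
      have := congrArg (fun T : K →L[ℂ] K => T x) hUU
      simpa using this
    rw [this]
  have hUx : ∀ x : K, U' (U x) = x := by
    intro x
    have := congrArg (fun T : K →L[ℂ] K => T x) hUU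
    simpa using this
  refine ext_inner' fun η ξ => ?_
  rw [hS'.inner_pin, ← hσ.integral_comp hσe]
  have h1 : ⟪η, (U * hS.pin Z * U') ξ⟫_ℂ = ⟪U' η, hS.pin Z (U' ξ)⟫_ℂ := by
    rw [← hU, adjoint_inner_left, hU]
    rfl
  rw [h1, hS.inner_pin]
  refine integral_congr_ae (Eventually.of_forall fun g => ?_)
  change ⟪S g (U' η), Z (S g (U' ξ))⟫_ℂ = ⟪S' (σ g) η, (U * Z * U') (S' (σ g) ξ)⟫_ℂ
  rw [← h g]
  simp only [ContinuousLinearMap.mul_apply]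
  rw [hUx, hin]

end Vale.Agent.P092.H295
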