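import Vale.Agent.P092.H295.Pin

/-!
P092, [D-XC] (helper295): Kadison-Schwarz for pinchings, the pinching of a calculus of `C(P, ℂ)`.
-/

set_option linter.all false

open scoped InnerProductSpace ENNReal Topology ZeroAtInfty
open Filter Topology ContinuousLinearMap MeasureTheory Measure

namespace Vale.Agent.P092.H295

section ks

variable {G : Type*} [MeasurableSpace G] {μ : Measure G}
  {K : Type*} [NormedAddCommGroup K] [InnerProductSpace ℂ K] [CompleteSpace K]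
  {S : G → K →L[ℂ] K} {C : ℝ}

/-- Kadison-Schwarz for the pinching -/
theorem pin_ks (hS : SqF μ S C) (Z : K →L[ℂ] K) (ζ : K) :
    ‖pin μ S Z ζ‖ ^ 2 ≤ C ^ 2 * (⟪ζ, pin μ S (adjoint Z * Z) ζ⟫_ℂ).re := by
  have h1 : ‖(Z.compLpL 2 μ) (hS.col ζ)‖ ^ 2 = (⟪ζ, pin μ S (adjoint Z * Z) ζ⟫_ℂ).re := by
    have h2 : ⟪(Z.compLpL 2 μ) (hS.col ζ), (Z.compLpL 2 μ) (hS.col ζ)⟫_ℂ =
        ⟪ζ, pin μ S (adjoint Z * Z) ζ⟫_ℂ := by
      rw [pin_apply hS, L2.inner_def]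
      refine integral_congr_ae ?_
      filter_upwards [hS.col_apply ζ, coeFn_compLpL Z (hS.col ζ)] with g h1 h3
      rw [h3, h1, ContinuousLinearMap.mul_apply, adjoint_inner_right]
    rw [← h2, inner_self_eq_norm_sq_to_K]
    norm_cast
  rw [pin_eq hS, ← h1, ← mul_pow]
  have h2 : ‖hS.pin Z ζ‖ ≤ C * ‖(Z.compLpL 2 μ) (hS.col ζ)‖ := by
    change ‖adjoint hS.col ((Z.compLpL 2 μ) (hS.col ζ))‖ ≤ _
    refine (le_opNorm _ _).trans ?_
    rw [LinearIsometryEquiv.norm_map]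
    gcongr
    exact hS.norm_col
  gcongr

end ks

section cal

variable {G : Type*} [TopologicalSpace G] [Group G] [IsTopologicalGroup G] [T2Space G]
  [LocallyCompactSpace G] [SecondCountableTopology G] [MeasurableSpace G] [BorelSpace G]
  {μ : Measure G} [μ.IsHaarMeasure] [μ.IsMulRightInvariant]
  {K : Type*} [NormedAddCommGroup K] [InnerProductSpace ℂ K] [CompleteSpace K]
  {Φ : C₀(G, ℂ) →⋆ₙₐ[ℂ] (K →L[ℂ] K)}
  {P : Type*} [TopologicalSpace P] [CompactSpace P]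

/-- `f ↦ pinC c (E f)` -/
noncomputable def pinE (μ : Measure G) [μ.IsHaarMeasure] [μ.IsMulRightInvariant]
    (h : ND Φ) {c : C₀(G, ℂ)} (hc : HasCompactSupport c)
    (E : C(P, ℂ) →⋆ₐ[ℂ] (K →L[ℂ] K)) : C(P, ℂ) →ₗ[ℂ] (K →L[ℂ] K) where
  toFun f := pinC μ Φ c (E f)
  map_add' f g := by rw [map_add, pinC_add h hc]
  map_smul' z f := by rw [map_smul, pinC_smul h hc, RingHom.id_apply]

lemma pinE_apply (h : ND Φ) {c : C₀(G, ℂ)} (hc : HasCompactSupport c)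
    (E : C(P, ℂ) →⋆ₐ[ℂ] (K →L[ℂ] K)) (f : C(P, ℂ)) : pinE μ h hc E f = pinC μ Φ c (E f) := rfl

theorem pinE_one (h : ND Φ) {c : C₀(G, ℂ)} (hc : HasCompactSupport c) (h1 : sq μ c = 1)
    (E : C(P, ℂ) →⋆ₐ[ℂ] (K →L[ℂ] K)) : pinE μ h hc E 1 = 1 := by
  rw [pinE_apply, map_one, pinC_one h hc, h1, Complex.ofReal_one, one_smul]

theorem pinE_ks (h : ND Φ) {c : C₀(G, ℂ)} (hc : HasCompactSupport c) (h1 : sq μ c = 1)
    (E : C(P, ℂ) →⋆ₐ[ℂ] (K →L[ℂ] K)) (f : C(P, ℂ)) (ζ : K) :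
    ‖pinE μ h hc E f ζ‖ ^ 2 ≤ RCLike.re ⟪ζ, pinE μ h hc E (star f * f) ζ⟫_ℂ := by
  have := pin_ks (sqF μ h c hc) (E f) ζ
  rw [h1, Real.sqrt_one, one_pow, one_mul] at this
  rw [pinE_apply, pinE_apply, map_mul, map_star]
  exact this

/-- almost commutation with an element normalising `Φ` from the right -/
theorem pinE_right (h : ND Φ) {c : C₀(G, ℂ)} (hc : HasCompactSupport c) (h1 : sq μ c = 1)
    {U U' : K →L[ℂ] K} {u : G} (hU : adjoint U = U') (hUU : U' * U = 1)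
    (hcov : ∀ c, U * Φ c * U' = Φ (rtr u c)) {E : C(P, ℂ) →⋆ₐ[ℂ] (K →L[ℂ] K)} {f : C(P, ℂ)}
    (hf : U * E f * U' = E f) :
    ‖U * pinE μ h hc E f * U' - pinE μ h hc E f‖ ≤ 2 * Real.sqrt (sq μ (cj u c - c)) * ‖E f‖ := by
  rw [pinE_apply, pinC_rtr h hc hU hUU hcov, hf]
  have := pinC_sub_le (μ := μ) h (hcs_cj hc u) hc (E f)
  rw [sq_cj, h1, Real.sqrt_one] at this
  calc _ ≤ _ := this
    _ = _ := by ring

end cal

end Vale.Agent.P092.H295
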