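import Vale.Agent.P092.H295.PinE
import Vale.Agent.P092.H325.UltraP
import Vale.Agent.P092.H626.Bump

/-!
P092, [D-XC] (helper295): the ultralimit of the pinchings of a calculus `E` of one leg along the
classical calculus `Φ` of the other leg. It inherits every symmetry of `E`, and it commutes
with `Φ`.
-/

set_option linter.all false

open scoped InnerProductSpace ENNReal Topology ZeroAtInfty
open Filter Topology ContinuousLinearMap MeasureTheory Measure

namespace Vale.Agent.P092.H295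

section bumps

variable {G : Type*} [TopologicalSpace G] [Group G] [IsTopologicalGroup G] [T2Space G]
  [LocallyCompactSpace G] [SecondCountableTopology G] [MeasurableSpace G] [BorelSpace G]
  (μ : Measure G) [μ.IsHaarMeasure] [μ.IsMulRightInvariant]

/-- bumps at `1`, almost invariant under the conjugation with the elements of `N` -/
theorem exists_bumps (N : Set G) (hN : ∀ u ∈ N, ∀ v ∈ N, Commute u v) :
    ∃ c : Finset N × ℕ → C₀(G, ℂ), (∀ i, HasCompactSupport (c i)) ∧ (∀ i, sq μ (c i) = 1) ∧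
      (∀ O ∈ 𝓝 (1 : G), ∀ᶠ i in atTop, ∀ s, c i s ≠ 0 → s ∈ O) ∧
      ∀ u ∈ N, Tendsto (fun i => sq μ (cj u (c i) - c i)) atTop (𝓝 0) := by
  classical
  obtain ⟨V, hV⟩ := (𝓝 (1 : G)).exists_antitone_basis
  have hP : ∀ F : Finset N, (F.toList.map (fun x : N => (x : G))).Pairwise Commute := by
    intro F
    rw [List.pairwise_map]
    exact List.pairwise_of_forall fun a b => hN a a.2 b b.2
  choose c h1 h2 h3 h4 h5 h6 using fun i : Finset N × ℕ =>
    H626.Bump.bump_list μ (i.1.toList.map (fun x : N => (x : G))) (hP i.1)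
      (hV.1.mem_of_mem (i := i.2) trivial) (ε := 1 / ((i.2 : ℝ) + 1)) (by positivity)
  have e1 : ∀ i, sq μ (H626.Bump.up (c i) (h1 i) (h2 i)) = 1 := by
    intro i
    rw [← h5 i, sq]
    refine integral_congr_ae (Eventually.of_forall fun x => ?_)
    simp only [H626.Bump.up_apply, Complex.norm_real, Real.norm_eq_abs, sq_abs]
  have e2 : ∀ i (u : G), sq μ (cj u (H626.Bump.up (c i) (h1 i) (h2 i)) -
      H626.Bump.up (c i) (h1 i) (h2 i)) = ∫ x, (c i (u⁻¹ * x * u) - c i x) ^ 2 ∂μ := by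
    intro i u
    rw [sq]
    refine integral_congr_ae (Eventually.of_forall fun x => ?_)
    simp only [ZeroAtInftyContinuousMap.sub_apply, cj_apply, H626.Bump.up_apply]
    rw [← Complex.ofReal_sub, Complex.norm_real, Real.norm_eq_abs, sq_abs, mul_assoc]
  refine ⟨fun i => H626.Bump.up (c i) (h1 i) (h2 i), fun i => ?_, e1, ?_, ?_⟩
  · exact (h2 i).comp_left (g := fun t : ℝ => (t : ℂ)) Complex.ofReal_zero
  · intro O hO
    obtain ⟨n, -, hn⟩ := hV.1.mem_iff.1 hO
    filter_upwards [eventually_ge_atTop ((∅, n) : Finset N × ℕ)] with i hi s hs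
    have h7 : s ∈ tsupport (c i) := by
      refine subset_tsupport _ ?_
      rw [Function.mem_support]
      intro h0
      exact hs (by rw [H626.Bump.up_apply, h0, Complex.ofReal_zero])
    exact hn (hV.2 hi.2 (h4 i h7))
  · intro u hu
    simp only [e2]
    have h8 : Tendsto (fun i : Finset N × ℕ => 1 / ((i.2 : ℝ) + 1)) atTop (𝓝 0) := by
      rw [← prod_atTop_atTop_eq]
      exact (tendsto_one_div_add_atTop_nhds_zero_nat (𝕜 := ℝ)).comp tendsto_snd
    refine squeeze_zero' (Eventually.of_forall fun n => integral_nonneg fun x => sq_nonneg _) ?_ h8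
    filter_upwards [eventually_ge_atTop (({⟨u, hu⟩}, 0) : Finset N × ℕ)] with i hi
    refine h6 i u (List.mem_map.2 ⟨⟨u, hu⟩, ?_, rfl⟩)
    rw [Finset.mem_toList]
    exact hi.1 (Finset.mem_singleton_self _)

end bumps

section cross

variable {G : Type*} [TopologicalSpace G] [Group G] [IsTopologicalGroup G] [T2Space G]
  [LocallyCompactSpace G] [SecondCountableTopology G] [MeasurableSpace G] [BorelSpace G]
  (μ : Measure G) [μ.IsHaarMeasure] [μ.IsMulRightInvariant]
  {K : Type*} [NormedAddCommGroup K] [InnerProductSpace ℂ K] [CompleteSpace K]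
  {Φ : C₀(G, ℂ) →⋆ₙₐ[ℂ] (K →L[ℂ] K)}
  {P : Type*} [TopologicalSpace P] [CompactSpace P]

include μ in
/-- **[XC-4]** the ultralimit of the pinchings of `E` along `Φ`. -/
theorem exists_cross (h : ND Φ) (E : C(P, ℂ) →⋆ₐ[ℂ] (K →L[ℂ] K)) (N : Set G)
    (hN : ∀ u ∈ N, ∀ v ∈ N, Commute u v) :
    ∃ E' : C(P, ℂ) →ₗ[ℂ] (K →L[ℂ] K), E' 1 = 1 ∧
      (∀ f ζ, ‖E' f ζ‖ ^ 2 ≤ RCLike.re ⟪ζ, E' (star f * f) ζ⟫_ℂ) ∧ (∀ f, ‖E' f‖ ≤ ‖f‖) ∧
      (∀ T, (∀ c, Φ c * T = T * Φ c) → ∀ f, E f * T = T * E f → E' f * T = T * E' f) ∧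
      (∀ (U U' : K →L[ℂ] K) (a : G), adjoint U = U' → U' * U = 1 →
        (∀ c, U * Φ c * U' = Φ (ltr a c)) → ∀ f f', U * E f * U' = E f' → U * E' f * U' = E' f') ∧
      (∀ (U U' : K →L[ℂ] K), ∀ u ∈ N, adjoint U = U' → U' * U = 1 →
        (∀ c, U * Φ c * U' = Φ (rtr u c)) → ∀ f, U * E f * U' = E f → U * E' f * U' = E' f) ∧
      ∀ f χ, E' f * Φ χ = Φ χ * E' f := by
  classical
  obtain ⟨c, hc, hc1, hcO, hcN⟩ := exists_bumps μ N hN
  set 𝒰 : Ultrafilter (Finset N × ℕ) := Ultrafilter.of atTop with h𝒰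
  have hle : (𝒰 : Filter (Finset N × ℕ)) ≤ atTop := Ultrafilter.of_le _
  obtain ⟨E', h1, hks, hn, hlim⟩ := H325.ultraP (fun i => pinE μ h (hc i) E)
    (fun i => pinE_one h (hc i) (hc1 i) E) (fun i => pinE_ks h (hc i) (hc1 i) E) 𝒰
  have hsand : ∀ (U U' : K →L[ℂ] K) f x z,
      Tendsto (fun i => ⟪x, (U * pinC μ Φ (c i) (E f) * U') z⟫_ℂ) 𝒰 (𝓝 ⟪x, (U * E' f * U') z⟫_ℂ) := by
    intro U U' f x z
    have := hlim f (adjoint U x) (U' z)
    simp only [adjoint_inner_left] at this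
    exact this
  have hsub0 : ∀ {T : Finset N × ℕ → (K →L[ℂ] K)}, Tendsto (fun i => ‖T i‖) 𝒰 (𝓝 0) →
      ∀ x z, Tendsto (fun i => ⟪x, T i z⟫_ℂ) 𝒰 (𝓝 0) := by
    intro T hT x z
    rw [tendsto_zero_iff_norm_tendsto_zero]
    refine squeeze_zero (fun i => norm_nonneg _) (fun i => ?_)
      (by simpa using (hT.mul_const ‖z‖).const_mul ‖x‖ :
        Tendsto (fun i => ‖x‖ * (‖T i‖ * ‖z‖)) 𝒰 (𝓝 0))
    exact (norm_inner_le_norm _ _).trans (by gcongr; exact le_opNorm _ _)
  refine ⟨E', h1, hks, hn, ?_, ?_, ?_, ?_⟩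
  · intro T hT f hf
    refine ext_inner' fun x z => ?_
    have a1 := hsand 1 T f x z
    have a2 := hsand T 1 f x z
    have a3 : ∀ i, 1 * pinC μ Φ (c i) (E f) * T = T * pinC μ Φ (c i) (E f) * 1 := by
      intro i
      rw [one_mul, mul_one]
      exact pinC_commute h (hc i) hT hf
    simp only [a3] at a1
    have a4 := tendsto_nhds_unique a1 a2
    rwa [one_mul, mul_one] at a4
  · intro U U' a hU hUU hcov f f' hff
    refine ext_inner' fun x z => ?_
    have a1 := hsand U U' f x z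
    have a2 := hlim f' x z
    have a3 : ∀ i, U * pinC μ Φ (c i) (E f) * U' = pinC μ Φ (c i) (E f') := by
      intro i
      rw [pinC_ltr h (hc i) hU hUU hcov, hff]
    simp only [a3] at a1
    exact tendsto_nhds_unique a1 a2
  · intro U U' u hu hU hUU hcov f hf
    refine ext_inner' fun x z => ?_
    have a1 := hsand U U' f x z
    have a2 := hlim f x z
    have a3 : Tendsto (fun i => ‖U * pinC μ Φ (c i) (E f) * U' - pinC μ Φ (c i) (E f)‖) 𝒰
        (𝓝 0) := by
      have b1 : Tendsto (fun i => 2 * Real.sqrt (sq μ (cj u (c i) - c i)) * ‖E f‖) 𝒰 (𝓝 0) := by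
        have := (((Real.continuous_sqrt.tendsto _).comp ((hcN u hu).mono_left hle)).const_mul
          2).mul_const ‖E f‖
        simpa using this
      exact squeeze_zero (fun i => norm_nonneg _)
        (fun i => pinE_right h (hc i) (hc1 i) hU hUU hcov hf) b1
    have a4 := hsub0 a3 x z
    have a5 := a4.add a2
    simp only [ContinuousLinearMap.sub_apply, inner_sub_right, zero_add] at a5
    refine tendsto_nhds_unique a1 (a5.congr fun i => ?_)
    rw [pinE_apply]
    ring
  · intro f χ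
    refine ext_inner' fun x z => ?_
    have a1 := hsand 1 (Φ χ) f x z
    have a2 := hsand (Φ χ) 1 f x z
    have a3 : Tendsto (fun i => ‖1 * pinC μ Φ (c i) (E f) * Φ χ - Φ χ * pinC μ Φ (c i) (E f) * 1‖)
        𝒰 (𝓝 0) := by
      rw [Metric.tendsto_nhds]
      intro ε hε
      have hpos : 0 < 2 * (‖E f‖ + 1) := by positivity
      obtain ⟨V, hV, hVs⟩ := exists_nhds_right χ (ε := ε / (2 * (2 * (‖E f‖ + 1)))) (by positivity)
      filter_upwards [hle (hcO V hV)] with i hi
      rw [dist_zero_right, norm_norm, one_mul, mul_one]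
      have b1 := comm_le (μ := μ) h (hc i) χ (δ := ε / (2 * (2 * (‖E f‖ + 1)))) (by positivity)
        (fun g s hs => (hVs s (hi s hs) g).le) (E f)
      rw [hc1 i, mul_one] at b1
      refine lt_of_le_of_lt b1 ?_
      have b2 : 2 * (ε / (2 * (2 * (‖E f‖ + 1)))) * ‖E f‖ = ε / 2 * (‖E f‖ / (‖E f‖ + 1)) := by
        field_simp
      rw [b2]
      have b3 : ‖E f‖ / (‖E f‖ + 1) ≤ 1 := by
        rw [div_le_one (by positivity)]
        linarith
      calc ε / 2 * (‖E f‖ / (‖E f‖ + 1)) ≤ ε / 2 * 1 := by gcongr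
        _ < ε := by linarith
    have a4 := hsub0 a3 x z
    simp only [ContinuousLinearMap.sub_apply, inner_sub_right] at a4
    have a5 := tendsto_nhds_unique (a1.sub a2) a4
    rw [one_mul, mul_one, sub_eq_zero] at a5
    exact a5

end cross

end Vale.Agent.P092.H295
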