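import Vale.Agent.P092.H295.Xcr
import Vale.Agent.P092.H862.Uq7
import Vale.Agent.P092.H715.Gen

/-!
P092, [D-XC] (helper295): the two legs commute, `SD.XCStmt ℝ`.
-/

set_option linter.all false

open scoped InnerProductSpace ENNReal Topology ZeroAtInfty LinearAlgebra.Projectivization
open Filter Topology ContinuousLinearMap MeasureTheory Measure

namespace Vale.Agent.P092.H295

open Vale.Agent.P092.RC (Cm)
open Vale.Agent.P092.SD (G3 PP CP tau nm act Cls TV XCStmt)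

section sql

variable {G : Type} [TopologicalSpace G] [Group G] [IsTopologicalGroup G] [T2Space G]
  [LocallyCompactSpace G] [SecondCountableTopology G] [MeasurableSpace G] [BorelSpace G]
  (μ : Measure G) [μ.IsHaarMeasure] [μ.IsMulRightInvariant]
  {K : Type} [NormedAddCommGroup K] [InnerProductSpace ℂ K] [CompleteSpace K]
  {Φ : C₀(G, ℂ) →⋆ₙₐ[ℂ] (K →L[ℂ] K)}

lemma lint_sq (c : C₀(G, ℂ)) (hc : HasCompactSupport c) :
    ∫⁻ g, ‖c g‖ₑ ^ 2 ∂μ = ENNReal.ofReal (sq μ c) := by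
  have h1 : Continuous fun g => ‖c g‖ ^ 2 := (map_continuous c).norm.pow 2
  have h2 : HasCompactSupport fun g => ‖c g‖ ^ 2 := by
    have := hc.comp_left (g := fun z : ℂ => ‖z‖ ^ 2) (by simp)
    exact this
  have h3 : Integrable (fun g => ‖c g‖ ^ 2) μ := h1.integrable_of_hasCompactSupport h2
  rw [sq, ofReal_integral_eq_lintegral_ofReal h3 (Eventually.of_forall fun g => by positivity)]
  refine lintegral_congr fun g => ?_
  rw [← ofReal_norm_eq_enorm, ENNReal.ofReal_pow (norm_nonneg _)]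

theorem sq_lint (h : ND Φ) (c : C₀(G, ℂ)) (hc : HasCompactSupport c) (ξ : K) :
    ∫⁻ g, ‖Φ (ltr g c) ξ‖ₑ ^ 2 ∂μ = (∫⁻ g, ‖c g‖ₑ ^ 2 ∂μ) * ‖ξ‖ₑ ^ 2 := by
  rw [lint_sq μ c hc, ← ofReal_norm_eq_enorm, ← ENNReal.ofReal_pow (norm_nonneg _),
    ← ENNReal.ofReal_mul (sq_nonneg' μ c), ← sq_int μ h c hc ξ,
    ofReal_integral_eq_lintegral_ofReal (integrable_sq μ h c hc ξ)
      (Eventually.of_forall fun g => by positivity)]
  refine lintegral_congr fun g => ?_
  rw [← ofReal_norm_eq_enorm, ENNReal.ofReal_pow (norm_nonneg _)]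

end sql

/-- a classical leg in the letters of helper862 -/
theorem lg_of {k : Type} [NontriviallyNormedField k] [ProperSpace k] {Γ K : Type} [Group Γ]
    [NormedAddCommGroup K] [InnerProductSpace ℂ K] [CompleteSpace K]
    {π : G3 k →* (K →L[ℂ] K)} {lam : Γ →* (K →L[ℂ] K)} {W : Set (K →L[ℂ] K)} {Ω : K}
    {q : Γ →* G3 k} {E F : PP k → (CP k →⋆ₐ[ℂ] (K →L[ℂ] K))}
    {Q : C₀(G3 k, ℂ) →⋆ₙₐ[ℂ] (K →L[ℂ] K)} [LocallyCompactSpace (G3 k)]
    [SecondCountableTopology (G3 k)] [MeasurableSpace (G3 k)] [BorelSpace (G3 k)]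
    (μ : Measure (G3 k)) [μ.IsHaarMeasure] [μ.IsMulRightInvariant]
    (hP : RC.Pic π lam W Ω) (hT : TV π lam W Ω) (h : Cls π lam W q E F Q) :
    H862.Lg μ π lam W Ω q Q where
  adjP := hP.adjP
  adjL := hP.adjL
  Wadj := hP.Wadj
  nΩ := hP.nΩ
  tr_adj := hP.tr_adj
  tr_zero := hP.tr_zero
  tv Y h1 h2 g := hT Y ⟨h1, h2⟩ g
  cm := h.cm
  cov γ ψ := h.cov γ ψ _ fun x => rfl
  pcov g ψ := h.pcov g ψ _ fun x => rfl
  sq c hc ξ := sq_lint μ h.nd c hc ξ

theorem uqStmt : UqStmt ℝ := by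
  intro Γ K _ _ _ _ _ π lam W Ω q E F Q hP hT hf hQ a
  haveI : LocallyCompactSpace (G3 ℝ) := H303.locallyCompact_SL
  haveI : SecondCountableTopology (G3 ℝ) := H303.secondCountable_SL
  letI : MeasurableSpace (G3 ℝ) := borel _
  haveI : BorelSpace (G3 ℝ) := ⟨rfl⟩
  haveI : (haar : Measure (G3 ℝ)).IsMulRightInvariant := rightInv H899.commutator_eq_top _
  obtain ⟨u, hua, hu⟩ := H715.Xc6.exists_rg a
  refine ⟨{u}, ?_, ?_, ?_⟩
  · rintro _ rfl _ rfl
    exact Commute.refl _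
  · rintro _ rfl
    exact hua
  intro E' h1 hks hn hcm hcov hpi
  have hfin : ∀ r : ℝ, {γ | ∀ i j, ‖(q γ).1 i j‖ ≤ r}.Finite := by
    intro r
    refine (hf (max r 0)).subset fun γ hγ => ?_
    change ‖(fun i j => (q γ).1 i j : Fin 3 → Fin 3 → ℝ)‖ ≤ max r 0
    rw [pi_norm_le_iff_of_nonneg (le_max_right _ _)]
    intro i
    rw [pi_norm_le_iff_of_nonneg (le_max_right _ _)]
    intro j
    exact (hγ i j).trans (le_max_left _ _)
  have hM : H862.Mp π lam W q u E' :=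
    { up := ⟨h1, hks⟩
      cm := hcm
      com := fun f => by
        have h2 := hpi u rfl f
        calc π u * E' f = π u * E' f * (π u⁻¹ * π u) := by rw [inv_mul_map, mul_one]
          _ = π u * E' f * π u⁻¹ * π u := by rw [mul_assoc (π u * E' f)]
          _ = E' f * π u := by rw [h2]
      cov := hcov }
  exact H862.uq (lg_of (haar : Measure (G3 ℝ)) hP hT hQ) hQ.nd
    (fun C hC => H715.Xc6.overlap_tsum q (fun C hC => H715.Xc6.fin_compact q hfin hC) hC) hu hM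
    (E a) (fun f b b' hb => hQ.mulE a f b b' hb)

theorem genStmt : GenStmt ℝ := by
  intro Γ K _ _ _ _ π lam W q E F Q hQ T hT ψ
  exact H715.Gen.gen hQ hT ψ

/-- **[D-XC]** the two legs commute -/
theorem xcStmt : XCStmt ℝ := xc_of uqStmt genStmt

end Vale.Agent.P092.H295
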