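import Vale.Agent.P092.H295.Dv
import Vale.Agent.P092.SD.Blocks
import Vale.Agent.P092.H899.Simple
import Vale.Agent.P092.H303.Form

/-!
P092, [D-XC] (helper295): `SD.XCStmt k` from the uniqueness of the calculus of a point and the
generation of a classical leg by its points. Any local field `k`.
-/

set_option linter.all false

open scoped InnerProductSpace ENNReal Topology ZeroAtInfty LinearAlgebra.Projectivization
open Filter Topology ContinuousLinearMap MeasureTheory Measure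

namespace Vale.Agent.P092.H295

open Vale.Agent.P092.RC (Cm)
open Vale.Agent.P092.SD (G3 PP CP tau nm act Cls TV XCStmt)

section uni

variable {G : Type*} [Group G] [TopologicalSpace G] [IsTopologicalGroup G] [LocallyCompactSpace G]

theorem modChar_one (hperf : commutator G = ⊤) (g : G) : modularCharacterFun g = 1 := by
  have h1 : commutator G ≤ (MonoidHom.toHomUnits (modularCharacter (G := G))).ker :=
    Abelianization.commutator_subset_ker _
  have h2 : g ∈ (MonoidHom.toHomUnits (modularCharacter (G := G))).ker :=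
    h1 (hperf ▸ Subgroup.mem_top g)
  exact congrArg (fun u : NNRealˣ => (u : NNReal)) (MonoidHom.mem_ker.1 h2)

/-- perfect groups are unimodular -/
theorem rightInv [SecondCountableTopology G] (hperf : commutator G = ⊤) [MeasurableSpace G]
    [BorelSpace G] (μ : Measure G) [IsHaarMeasure μ] : μ.IsMulRightInvariant :=
  ⟨fun g => by rw [map_right_mul_eq_modularCharacterFun_smul μ g, modChar_one hperf, one_smul]⟩

end uni

section sd

variable {k : Type} [NontriviallyNormedField k] [ProperSpace k]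

theorem pt_of_cls {Γ K : Type} [Group Γ] [NormedAddCommGroup K] [InnerProductSpace ℂ K]
    [CompleteSpace K] {π : G3 k →* (K →L[ℂ] K)} {lam : Γ →* (K →L[ℂ] K)}
    {W : Set (K →L[ℂ] K)} {q : Γ →* G3 k} {E F : PP k → (CP k →⋆ₐ[ℂ] (K →L[ℂ] K))}
    {Q : C₀(G3 k, ℂ) →⋆ₙₐ[ℂ] (K →L[ℂ] K)} (h : Cls π lam W q E F Q) (a : PP k) :
    Pt π lam W q (MonoidHom.id (G3 k)) a (E a) Q where
  nd := h.nd
  cm := h.cm
  cov γ ψ := h.cov γ ψ _ fun x => rfl
  pcov g ψ := h.pcov g ψ _ fun x => rfl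
  mulE f ψ := h.mulE a f ψ _ fun x => rfl

/-- uniqueness of the calculus of a point (helper862) -/
def UqStmt (k : Type) [NontriviallyNormedField k] [ProperSpace k] : Prop :=
  ∀ {Γ K : Type} [Group Γ] [Countable Γ] [NormedAddCommGroup K] [InnerProductSpace ℂ K]
    [CompleteSpace K] (π : G3 k →* (K →L[ℂ] K)) (lam : Γ →* (K →L[ℂ] K))
    (W : Set (K →L[ℂ] K)) (Ω : K) (q : Γ →* G3 k)
    (E F : PP k → (CP k →⋆ₐ[ℂ] (K →L[ℂ] K))) (Q : C₀(G3 k, ℂ) →⋆ₙₐ[ℂ] (K →L[ℂ] K)),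
    RC.Pic π lam W Ω → TV π lam W Ω → (∀ C : ℝ, {γ : Γ | nm (q γ) ≤ C}.Finite) →
    Cls π lam W q E F Q → ∀ a : PP k, ∃ N : Set (G3 k), (∀ u ∈ N, ∀ v ∈ N, Commute u v) ∧
      (∀ u ∈ N, u • a = a) ∧ Uniq π lam W q N (E a)

/-- a classical leg is generated by its points (helper715) -/
def GenStmt (k : Type) [NontriviallyNormedField k] [ProperSpace k] : Prop :=
  ∀ {Γ K : Type} [Group Γ] [NormedAddCommGroup K] [InnerProductSpace ℂ K]
    [CompleteSpace K] (π : G3 k →* (K →L[ℂ] K)) (lam : Γ →* (K →L[ℂ] K))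
    (W : Set (K →L[ℂ] K)) (q : Γ →* G3 k)
    (E F : PP k → (CP k →⋆ₐ[ℂ] (K →L[ℂ] K))) (Q : C₀(G3 k, ℂ) →⋆ₙₐ[ℂ] (K →L[ℂ] K)),
    Cls π lam W q E F Q → ∀ T, (∀ a f, Commute T (E a f)) → ∀ ψ, Commute T (Q ψ)

/-- **[D-XC]** -/
theorem xc_of (h1 : UqStmt k) (h2 : GenStmt k) : XCStmt k := by
  intro Γ K _ _ _ _ _ π lam₁ lam₂ X Ω q₁ q₂ E₁ F₁ E₂ F₂ Q₁ Q₂ hP hT₁ hT₂ hf₁ hf₂ hQ₁ hQ₂ ψ φ
  haveI : LocallyCompactSpace (G3 k) := H303.locallyCompact_SL
  haveI : SecondCountableTopology (G3 k) := H303.secondCountable_SL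
  letI : MeasurableSpace (G3 k) := borel _
  haveI : BorelSpace (G3 k) := ⟨rfl⟩
  haveI : (haar : Measure (G3 k)).IsMulRightInvariant :=
    rightInv H899.commutator_eq_top _
  refine (h2 π lam₁ _ q₁ E₁ F₁ Q₁ hQ₁ (Q₂ φ) (fun a f => ?_) ψ).symm
  obtain ⟨N, hN, hNa, hu⟩ := h1 π lam₁ _ Ω q₁ E₁ F₁ Q₁ hP.leg₁ hT₁ hf₁ hQ₁ a
  exact (commute_of_uniq (q₂ := q₂) (ι₂ := MonoidHom.id _) (haar : Measure (G3 k))
    (pt_of_cls hQ₁ a) hQ₂.nd hQ₂.cm
    (fun γ ψ => hQ₂.cov γ ψ _ fun x => rfl) (fun g ψ => hQ₂.pcov g ψ _ fun x => rfl)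
    hP.leg₁.adjP hP.leg₁.adjL hP.leg₂.adjL N hN hNa hu f φ).symm

end sd

end Vale.Agent.P092.H295
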